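import Vale.Agent.P280Z.Al.Chn
import Vale.Agent.P280Z.Al.Lei
import Vale.Agent.P280Z.Al.Elr

/-!
# P280Z, block Qs: rules valid for all dimensions
-/

open Finset
open Vale.Agent.P231.ChW (NewtonRec)

noncomputable section

namespace Vale.Agent.P280Z.Qs

open Al Al.Cn

variable {A B : Type} [CommRing A] [Algebra ℝ A] [CommRing B] [Algebra ℝ B] {S : NS A B} {n r : ℕ}

theorem int_dg {G : GA A} (h : G.OK n) {k : ℕ} {x : A} (hx : G.Dg k x) (hk : n ≠ k) :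
    G.int x = 0 := by
  rw [← h.int_pr, ← show _ = x from hx, h.pr_pr, if_neg hk, map_zero]

theorem pd_dg {G : GA A} (h : G.OK n) {j k : ℕ} {a : A} (ha : G.Dg j a) (e : j + k = n)
    (h0 : ∀ b, G.Dg k b → G.int (a * b) = 0) : a = 0 := by
  refine h.pd a fun b => ?_
  rw [← h.pr_sum b, mul_sum, map_sum]
  refine sum_eq_zero fun i _ => ?_
  have : G.Dg i (G.pr i b) := (h.pr_pr i i b).trans (if_pos rfl)
  by_cases hi : i = k
  · exact h0 _ (hi ▸ this)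
  · exact int_dg h (h.dg_mul _ _ _ _ ha this) (by omega)

theorem dg_sub {G : GA A} {k : ℕ} {a b : A} (ha : G.Dg k a) (hb : G.Dg k b) (c : ℝ) :
    G.Dg k (a - c • b) := by
  rw [GA.Dg, map_sub, map_smul, ha, hb]

theorem dg_hi {G : GA A} (h : G.OK n) {k : ℕ} {a : A} (ha : G.Dg k a) (hk : n < k) : a = 0 :=
  ha.symm.trans (h.pr_zero k a hk)

theorem dl (h : S.OK0 n r) {k : ℕ} {x : B} (hx : S.GU.Dg (k + r) x) : S.GX.Dg k (S.el x) :=
  (h.el_pr k x).trans (congrArg _ hx)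

theorem lo (h : S.OK0 n r) {k : ℕ} {x : B} (hk : k < r) (hx : S.GU.Dg k x) : S.el x = 0 := by
  rw [← h.gx.pr_sum (S.el x)]
  refine sum_eq_zero fun j _ => ?_
  rw [h.el_pr, ← show _ = x from hx, h.gu.pr_pr, if_neg (by omega), map_zero]

theorem top0 (h : S.OK0 n r) {a : A} (ha : S.GX.Dg n a) : ∃ x : ℝ, a = x • S.η ^ n := by
  obtain ⟨b, hb, rfl⟩ := (h.hl 0 n (by omega)).2 a (by rwa [zero_add])
  obtain ⟨c, rfl⟩ := h.h0 b hb
  exact ⟨c, by rw [mul_comm, Algebra.smul_def]⟩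

theorem top1 (h : S.OK (n + 2) r) {a : A} (ha : S.GX.Dg (n + 1) a) :
    ∃ x : ℝ, a = x • S.η ^ (n + 1) := by
  obtain ⟨b, hb, rfl⟩ := (h.hl 1 n (by omega)).2 a (by rwa [add_comm])
  obtain ⟨c, rfl⟩ := h.b2 b hb
  exact ⟨c, by rw [mul_smul_comm, ← pow_succ]⟩

theorem dh (h : S.OK0 n r) : S.GU.Dg 1 S.hh := (lei S n r h).de 1 _ h.dη

theorem dc (h : S.OK0 n r) : S.GU.Dg 1 S.hc := by
  rw [GA.Dg, NS.hc, map_sub, dh h, h.dτ]

theorem da (h : S.OK0 n r) : S.GU.Dg 1 S.aa := by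
  rw [GA.Dg, NS.aa, map_add, dh h, dc h]

theorem Tη (h : S.OK0 n r) (k : ℕ) : S.T (S.es (S.η ^ (k + 1))) = S.H k := by
  rw [map_pow]; exact (lei S n r h).pow k

theorem hz (h : S.OK0 n r) {k : ℕ} (hk : n < k) : S.η ^ k = 0 :=
  dg_hi h.gx (Elr.dg_pow h.gx h.dη k) hk

theorem Hz (h : S.OK0 n r) {k : ℕ} (hk : n ≤ k) : S.H k = 0 := by
  rw [← Tη h, hz h (by omega), map_zero, map_zero]

/-- the integral over the space of curves -/
def J (S : NS A B) : B →ₗ[ℝ] ℝ := S.GU.int.comp (LinearMap.mulLeft ℝ S.hh)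

theorem int_el (h : S.OK0 n r) (x : B) (a : A) :
    S.GX.int (S.el x * a) = J S (S.T (x * S.es a)) := by
  rw [← h.proj, h.el_int]; exact (lei S n r h).int _

theorem uu_eq (S : NS A B) : S.uu = (1 / 4 : ℝ) • (S.aa ^ 2 - 4 * S.ee) := by
  simp only [NS.uu, NS.aa, NS.ee, NS.hc]; algebra

/-- the invariant power sums in terms of the classes `t k = T (ps (T_X) k)` -/
structure Ch (r : ℝ) (t Q : ℕ → B) (U : B) : Prop where
  q1 : Q 1 = (1 / 2 : ℝ) • t 2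
  q2 : Q 2 = (1 / 3 : ℝ) • t 3 - ((8 + r) / 3) • U
  q3 : Q 3 = (1 / 4 : ℝ) • t 4 - Q 1 * U
  q4 : Q 4 = (1 / 5 : ℝ) • t 5 - 2 * Q 2 * U - ((32 + r) / 5) • U ^ 2
  q5 : Q 5 = (1 / 6 : ℝ) • t 6 - (10 / 3 : ℝ) • (Q 3 * U) - Q 1 * U ^ 2
  q6 : Q 6 = (1 / 7 : ℝ) • t 7 - 5 * Q 4 * U - 3 * Q 2 * U ^ 2 - ((128 + r) / 7) • U ^ 3
  q7 : Q 7 = (1 / 8 : ℝ) • t 8 - 7 * Q 5 * U - 7 * Q 3 * U ^ 2 - Q 1 * U ^ 3

theorem hQ (S : NS A B) : S.Q = bt ((2 : ℝ)⁻¹ • S.τ) S.pE :=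
  funext fun _ => sum_congr rfl fun j _ => by rw [Algebra.smul_def, map_natCast]

theorem hE (S : NS A B) (k : ℕ) : S.pE k = bt (-((2 : ℝ)⁻¹ • S.τ)) S.Q k := by
  rw [hQ, bt_bt, neg_add_cancel, bt_id]

theorem q0 (h : S.OK0 n r) : S.Q 0 = r := by rw [hQ, bt_zero, h.E0]

theorem tform (h : S.OK0 n r) : ∃ g : ℕ → B, (∀ m, g (2 * m) = 0) ∧
    (∀ m, g (2 * m + 1) = -S.uu ^ m) ∧ ∀ k, S.T (S.es (S.pX k)) = (-2) ^ k * g k -
      ∑ j ∈ range (k + 1), (k.choose j : B) * (S.Q j * g (k - j)) := by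
  have L := lei S n r h
  have hE := hE S
  obtain ⟨w, hw⟩ : ∃ w, w = (2 : ℝ)⁻¹ • S.τ := ⟨_, rfl⟩
  rw [← hw] at hE
  have hU : S.uu = (-w) ^ 2 := by rw [neg_sq, hw]; rfl
  have hτ : S.τ = -2 * -w := by rw [hw]; algebra
  have t1 : S.T (-w) = -1 := by rw [map_neg, hw, map_smul, h.Tτ]; algebra
  have t2 : S.T S.uu = 0 := by
    rw [hU, sq, L.mul, t1, hτ]
    ring
  have te : ∀ m, S.T (S.uu ^ m) = 0 := fun m => by
    induction m with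
    | zero => rw [pow_zero, L.one]
    | succ m ih => rw [pow_succ, L.ker _ _ ih, t2, mul_zero]
  have hc : ∀ (c : ℤ) (x : B), S.T ((c : B) * x) = (c : B) * S.T x := fun c x => by
    rw [← zsmul_eq_mul, map_zsmul, zsmul_eq_mul]
  refine ⟨fun m => S.T ((-w) ^ m), fun m => by rw [← te m, hU, ← pow_mul], fun m => ?_, fun k => ?_⟩
  · show S.T ((-w) ^ (2 * m + 1)) = _
    rw [pow_succ, pow_mul, ← hU, L.ker _ _ (te m), t1, mul_neg, mul_one]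
  have e2 := congrArg S.T (h.ses k)
  have e3 : S.T (S.τ ^ k) = (-2) ^ k * S.T ((-w) ^ k) := by
    have := hc ((-2) ^ k) ((-w) ^ k)
    push_cast at this
    rw [hτ, mul_pow, this]
  rw [map_add, map_add, h.TK, add_zero, e3, hE, bt, map_sum] at e2
  rw [eq_sub_iff_add_eq', ← e2]
  congr 1
  refine sum_congr rfl fun j _ => ?_
  have := hc (k.choose j) (S.Q j * (-w) ^ (k - j))
  rw [Int.cast_natCast] at this
  rw [this, L.ker (S.Q j) _ (h.inv j)]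

theorem ch (h : S.OK0 n r) : Ch r (fun k => S.T (S.es (S.pX k))) S.Q S.uu := by
  obtain ⟨g, ge, go, ht⟩ := tform h
  have g0 : g 0 = 0 := ge 0
  have g1 : g 1 = -S.uu ^ 0 := go 0
  have g2 : g 2 = 0 := ge 1
  have g3 : g 3 = -S.uu ^ 1 := go 1
  have g4 : g 4 = 0 := ge 2
  have g5 : g 5 = -S.uu ^ 2 := go 2
  have g6 : g 6 = 0 := ge 3
  have g7 : g 7 = -S.uu ^ 3 := go 3
  have g8 : g 8 = 0 := ge 4
  have e : (r : B) = (r : ℝ) • (1 : B) := by rw [Nat.cast_smul_eq_nsmul, nsmul_one]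
  constructor
  all_goals
    simp only [ht, sum_range_succ, sum_range_zero, Nat.choose, Nat.reduceSub, Nat.reduceAdd,
      Nat.sub_self, g0, g1, g2, g3, g4, g5, g6, g7, g8, q0 h, e]
    push_cast
    algebra

/-- the recursion of Newton for three roots -/
theorem nw3 (h : S.OK0 n 3) : ∃ f2 f3 : B, f2 = (1 / 2 : ℝ) • (S.Q 1 ^ 2 - S.Q 2) ∧
    f3 = (1 / 3 : ℝ) • (S.Q 3 - S.Q 1 * S.Q 2 + f2 * S.Q 1) ∧
    ∀ k, S.Q (k + 4) = S.Q 1 * S.Q (k + 3) - f2 * S.Q (k + 2) + f3 * S.Q (k + 1) := by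
  have h0 : S.pE 0 = 3 := by rw [h.E0]; norm_num
  obtain ⟨n1, n2, n3⟩ := newton3 (ne_spec S.pE) h0 (h.rank _ (ne_spec S.pE))
  have hr := bt_rec ((2 : ℝ)⁻¹ • S.τ) _ _ _ n3
  rw [← hQ] at hr
  have q1 : S.Q 1 = ne S.pE 1 + 3 * (2 : ℝ)⁻¹ • S.τ := by
    rw [hQ, bt_succ, bt_zero, bt_zero, h0, ← n1]; ring
  rw [← q1] at hr
  refine ⟨_, _, ?_, ?_, fun k => hr (k + 1)⟩
  · simp only [hQ, bt_succ _ _ 1, bt_succ _ _ 0, bt_zero, Nat.zero_add, Nat.reduceAdd, h0, n2, n1]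
    algebra
  · have := hr 0
    rw [q0 h] at this
    linear_combination (norm := (push_cast; algebra)) (-1 / 3 : ℝ) • this

/-- the recursion of Newton for two roots -/
theorem nw2 (h : S.OK0 n 2) : ∃ f2 : B, f2 = (1 / 2 : ℝ) • (S.Q 1 ^ 2 - S.Q 2) ∧
    ∀ k, S.Q (k + 3) = S.Q 1 * S.Q (k + 2) - f2 * S.Q (k + 1) := by
  obtain ⟨s, s0, s1⟩ : ∃ s : ℕ → B, s 0 = 3 ∧ ∀ k, s (k + 1) = S.pE (k + 1) :=
    ⟨fun k => if k = 0 then 3 else S.pE k, rfl, fun _ => rfl⟩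
  have h0 : S.pE 0 = 2 := by rw [h.E0]; norm_num
  have z := h.rank _ (ne_spec S.pE)
  obtain ⟨n1, n2, n3⟩ := newton3 (s := s) (e := ne S.pE)
    ⟨(ne_spec S.pE).1, fun j => by simp only [s1]; exact (ne_spec S.pE).2 j⟩ s0 fun j hj => z j (by omega)
  simp only [z 3 (by norm_num), zero_mul, add_zero, s1] at n3
  rw [s1] at n1 n2
  rw [s1] at n2
  have n4 : ∀ j, S.pE (j + 2) = ne S.pE 1 * S.pE (j + 1) - ne S.pE 2 * S.pE j := fun j => by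
    cases j with
    | zero => rw [h0, mul_comm _ 2]; exact n2
    | succ j => exact n3 j
  obtain ⟨w, hw⟩ : ∃ w, w = (2 : ℝ)⁻¹ • S.τ := ⟨_, rfl⟩
  have hr : ∀ k, bt w S.pE (k + 2) = (ne S.pE 1 + 2 * w) * bt w S.pE (k + 1) -
      (ne S.pE 2 + w * ne S.pE 1 + w ^ 2) * bt w S.pE k := fun k => by
    have h3 : bt w (fun j => S.pE (j + 1 + 1)) k = ne S.pE 1 * bt w (fun j => S.pE (j + 1)) k +
        (-ne S.pE 2) * bt w S.pE k + 0 * bt w S.pE k := by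
      rw [← bt_lin]
      exact congrArg (bt w · k) (funext fun j => (n4 j).trans (by ring))
    simp only [bt_succ w _ (k + 1), bt_succ w _ k, h3]
    ring
  have q1 : bt w S.pE 1 = ne S.pE 1 + 2 * w := by
    rw [bt_succ, bt_zero, bt_zero, h0, ← n1]; ring
  rw [← q1, hw, ← hQ, ← hw] at hr
  refine ⟨_, ?_, fun k => hr (k + 1)⟩
  have := hr 0
  rw [q0 h] at this
  linear_combination (norm := (push_cast; algebra)) (1 / 2 : ℝ) • this

end Vale.Agent.P280Z.Qs
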