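import Vale.Agent.P280Z.Qs.Eq5
import Vale.Agent.P280Z.Hr.Tdx

/-!
# P280Z, block Qs: the numbers of the quadric of dimension five
-/

open Finset PowerSeries

noncomputable section

namespace Vale.Agent.P280Z.Qs

open Al Al.Cn

variable {A B : Type} [CommRing A] [Algebra ℝ A] [CommRing B] [Algebra ℝ B] {S : NS A B}

/-- the numbers of the quadric of dimension `n` -/
structure Out (S : NS A B) (n r : ℕ) : Prop where
  pX : ∀ k, 1 ≤ k → S.pX k = ((n : ℝ) + 2 - 2 ^ k) • S.η ^ k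
  vol : S.GX.int (S.η ^ n) = 2
  pE1 : S.pE 1 = (r : ℝ) • S.hc
  pE : ∀ k, 1 ≤ k → k ≤ r →
    S.pE k = ((n : ℝ) + 2) • S.hc ^ k - S.aa ^ k - (2 * S.hc) ^ k - (-S.τ) ^ k

namespace Q5

theorem g6 (h : S.OK0 5 3) : S.ee * S.H 4 = 0 := by
  have k : S.hh ^ 6 = 0 := by rw [NS.hh, ← map_pow, hz h (by norm_num), map_zero]
  have k5 := Hz h (le_refl 5)
  simp only [NS.H, Hn, NS.aa, NS.ee] at k5 ⊢
  linear_combination S.hh * k5 - k

theorem pos (h : S.OK0 5 3) : 0 < J S (S.aa * S.ee ^ 3) := by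
  obtain ⟨D, D0, hD⟩ := h.D
  have L := lei S _ _ h
  have e : S.H 3 = (-S.τ) ^ 3 +
      (4 • (S.hh * S.hh) - 6 • (S.hh * S.τ) + 4 • (S.τ * S.τ)) * S.es S.η := by
    simp only [NS.H, Hn, NS.aa, NS.ee, NS.hc, NS.hh]
    ring
  have e1 : S.el (S.H 3) = algebraMap ℝ A D := by
    rw [e, map_add, hD, h.proj, map_add, map_sub, map_nsmul, map_nsmul, map_nsmul,
      lo h (by norm_num : 1 + 1 < 3) (h.gu.dg_mul 1 1 _ _ (dh h) (dh h)),
      lo h (by norm_num : 1 + 1 < 3) (h.gu.dg_mul 1 1 _ _ (dh h) h.dτ),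
      lo h (by norm_num : 1 + 1 < 3) (h.gu.dg_mul 1 1 _ _ h.dτ h.dτ)]
    simp
  have e2 := int_el h (S.H 3) (S.η ^ 5)
  rw [L.ker _ _ (by rw [← L.pow]; exact L.TT _), Tη h, e1, ← Algebra.smul_def, map_smul] at e2
  have e3 : S.H 3 * S.H 4 = S.aa * S.ee ^ 3 := by
    have k5 := Hz h (le_refl 5)
    simp only [NS.H, Hn] at k5 ⊢
    linear_combination (S.aa ^ 2 - S.ee) * k5
  rw [← e3, ← e2]
  exact mul_pos D0 h.vol

theorem prim (h : S.OK 5 3) {u : A} (hu : S.GX.Dg 2 u) (h0 : S.η ^ 2 * u = 0) : u = 0 := by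
  have h' := h.toOK0
  have L := lei S _ _ h'
  have k5 := Hz h' (le_refl 5)
  have k6 := g6 h'
  have k7 : S.hh ^ 6 = 0 := by rw [NS.hh, ← map_pow, hz h' (by norm_num), map_zero]
  have a1 : ∀ {u : A}, S.η ^ 2 * u = 0 → S.hc ^ 2 * S.T (S.es u) + S.aa * S.es u = 0 := fun {u} k => by
    have := congrArg (fun a => S.T (S.es a)) k
    simp only [map_mul, map_zero, L.mul, Tη h' 1] at this
    simp only [map_pow, NS.H, Hn, NS.aa, NS.hc, NS.hh] at this ⊢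
    linear_combination this
  obtain ⟨c, hc⟩ := h.b2 (S.el (S.aa ^ 2 * S.hc ^ 2)) (dl h' (h.gu.dg_mul 2 2 _ _
    (Elr.dg_pow h.gu (da h') 2) (Elr.dg_pow h.gu (dc h') 2)))
  have c0 : c ≠ 0 := fun c0 => by
    have e := int_el h' (S.aa ^ 2 * S.hc ^ 2) (S.η ^ 4)
    have e1 : S.aa ^ 2 * S.hc ^ 2 * S.es (S.η ^ 4) =
        S.aa * (S.aa * (S.ee * (S.ee * S.hh ^ 2))) := by rw [map_pow, NS.ee, NS.hh]; ring
    have e2 : S.aa * (S.aa * (S.ee * (S.ee * S.H 1))) = (2 : ℝ) • (S.aa * S.ee ^ 3) := by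
      simp only [NS.H, Hn] at k5 k6 ⊢
      linear_combination (norm := algebra) S.aa * k6 - S.ee * k5
    rw [hc, c0, zero_smul, zero_mul, map_zero, e1, L.ker _ _ L.aa, L.ker _ _ L.aa, L.ker _ _ L.ee,
      L.ker _ _ L.ee, L.pow, e2, map_smul, smul_eq_mul] at e
    linarith [pos h']
  refine pd_dg (k := 3) h.gx hu rfl fun b' hb' => ?_
  obtain ⟨b, hb, rfl⟩ := (h.hl 2 1 rfl).2 b' hb'
  obtain ⟨x, hx⟩ := top1 h (h.gx.dg_mul 2 2 _ _ (Elr.dg_pow h.gx h.dη 2) hb)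
  have a2 := a1 (u := b - x • S.η ^ 2) (by rw [mul_sub, hx]; algebra)
  have a3 : S.aa ^ 2 * S.hc ^ 2 * S.es (u * (b - x • S.η ^ 2)) = 0 := by
    have k8 : S.hc ^ 6 = 0 := by
      simp only [NS.H, Hn, NS.aa, NS.ee, NS.hc] at k5 ⊢
      linear_combination k7 - S.τ * k5
    rw [map_mul]
    linear_combination (S.hc ^ 2 * S.aa * S.es (b - x • S.η ^ 2)) * a1 h0 -
      (S.hc ^ 4 * S.T (S.es u)) * a2 + (S.T (S.es u) * S.T (S.es (b - x • S.η ^ 2))) * k8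
  have a4 := congrArg (fun y => S.GX.int (S.el y)) a3
  simp only [h.proj, hc, map_zero, smul_mul_assoc, map_smul, smul_eq_mul] at a4
  rw [← (mul_eq_zero.1 a4).resolve_left c0]
  congr 1
  linear_combination (norm := algebra) (x • S.η) * h0

theorem ring (h : S.OK 5 3) {k : ℕ} {a : A} (ha : S.GX.Dg (k + 1) a) :
    ∃ x : ℝ, a = x • S.η ^ (k + 1) := by
  have d2 : ∀ b, S.GX.Dg 2 b → ∃ x : ℝ, b = x • S.η ^ 2 := fun b hb => by
    obtain ⟨x, hx⟩ := top1 h (h.gx.dg_mul 2 2 _ _ (Elr.dg_pow h.gx h.dη 2) hb)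
    exact ⟨x, sub_eq_zero.1 (prim h (dg_sub hb (Elr.dg_pow h.gx h.dη 2) x)
      (by rw [mul_sub, hx]; algebra))⟩
  rcases k with _ | _ | _ | _ | _ | k
  · simpa using h.b2 a ha
  · exact d2 a ha
  · obtain ⟨b, hb, rfl⟩ := (h.hl 2 1 rfl).2 a ha
    obtain ⟨x, rfl⟩ := d2 b hb
    exact ⟨x, by algebra⟩
  · exact top1 h ha
  · exact top0 h.toOK0 ha
  · exact ⟨0, by rw [zero_smul]; exact dg_hi h.gx ha (by omega)⟩

end Q5

/-- the numbers of `Q⁵` -/
theorem q5 (h : S.OK 5 3) (td : S.GX.int (coeff 5 (Ex (C 0 + TL S.pX))) = 1)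
    (hm : ∃ m : ℤ, S.GX.int (S.pX 1 ^ 5) = m) : Out S 5 3 := by
  have h' := h.toOK0
  obtain ⟨m, hm⟩ := hm
  obtain ⟨x2, p2⟩ := Q5.ring h (h.dX 2)
  obtain ⟨x3, p3⟩ := Q5.ring h (h.dX 3)
  obtain ⟨x4, p4⟩ := Q5.ring h (h.dX 4)
  obtain ⟨x5, p5⟩ := Q5.ring h (h.dX 5)
  have tz : ∀ k, 5 < k → S.T (S.es (S.pX k)) = 0 := fun k hk => by
    rw [dg_hi h.gx (h.dX k) hk, map_zero, map_zero]
  have t : ∀ {k : ℕ} {x : ℝ}, S.pX (k + 1) = x • S.η ^ (k + 1) →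
      S.T (S.es (S.pX (k + 1))) = x • S.H k := fun e => by rw [e, map_smul, map_smul, Tη h']
  obtain ⟨f2, f3, n2, n3, nk⟩ := nw3 h'
  have c := ch h'
  rw [Nat.cast_ofNat] at c
  obtain ⟨a3, a5, a4, a2⟩ := alg5 (X2 := x2 / 2) (X3 := x3 / 3) (X4 := x4 / 4) (X5 := x5 / 5)
    (Hz h' (le_refl 5)) (Q5.g6 h') (fun c e => by
      have := congrArg (J S) e
      rw [map_smul, map_zero, smul_eq_mul] at this
      exact (mul_eq_zero.1 this).resolve_right (Q5.pos h').ne') (uu_eq S) c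
    ((t p2).trans (by rw [mul_div_cancel₀ _ two_ne_zero]; rfl))
    ((t p3).trans (by rw [mul_div_cancel₀ _ three_ne_zero]; rfl))
    ((t p4).trans (by rw [mul_div_cancel₀ _ four_ne_zero]; rfl))
    ((t p5).trans (by rw [mul_div_cancel₀ _ (by norm_num)]; rfl))
    (tz 6 (by norm_num)) (tz 7 (by norm_num)) (tz 8 (by norm_num)) n2 n3 nk
  have e1 : coeff 5 (Ex (C 0 + TL S.pX)) = (625 / 768 - 125 / 1152 * x2 + 5 / 2304 * x2 ^ 2 +
      1 / 1152 * x4 : ℝ) • S.η ^ 5 := by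
    rw [Hr.coeff_td _ _ (by norm_num), Hr.tdx, h.c1, p2, p4]
    push_cast
    algebra
  have e2 : S.pX 1 ^ 5 = (3125 : ℝ) • S.η ^ 5 := by
    rw [h.c1]
    push_cast
    algebra
  rw [e1, map_smul, smul_eq_mul] at td
  rw [e2, map_smul, smul_eq_mul] at hm
  have b2 : x2 = 3 := by
    have b4 : x4 = x2 ^ 3 - 12 * x2 := by linarith
    subst b4
    simp only [mul_eq_zero] at a2
    rcases a2 with ((a | a) | a) | a
    · linarith
    · obtain rfl : x2 = -3 := by linarith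
      have : 7 * m = 18750 := by exact_mod_cast (by linarith : (7 * m : ℝ) = 18750)
      omega
    · obtain rfl : x2 = 1 := by linarith
      have : 67 * m = 300000 := by exact_mod_cast (by linarith : (67 * m : ℝ) = 300000)
      omega
    · obtain rfl : x2 = -1 := by linarith
      have : 269 * m = 900000 := by exact_mod_cast (by linarith : (269 * m : ℝ) = 900000)
      omega
  subst b2
  obtain rfl : x3 = -1 := by linarith
  obtain rfl : x4 = -9 := by linarith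
  obtain rfl : x5 = -25 := by linarith
  have q1 := c.q1
  have q2 := c.q2
  have q3 := c.q3
  simp only [t p2, t p3, t p4] at q1 q2 q3
  rw [q1] at q3
  have E : ∀ k, 1 ≤ k → k ≤ 3 →
      S.pE k = (((5 : ℕ) : ℝ) + 2) • S.hc ^ k - S.aa ^ k - (2 * S.hc) ^ k - (-S.τ) ^ k := fun k k1 k3 => by
    interval_cases k
    all_goals
      simp only [hE, bt, sum_range_succ, sum_range_zero, Nat.choose, Nat.reduceSub, Nat.reduceAdd,
        Nat.sub_self, q0 h', q1, q2, q3, NS.uu, NS.H, Hn, NS.aa, NS.ee, NS.hc]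
      push_cast
      algebra
  refine ⟨fun k hk => ?_, by linarith, (E 1 le_rfl (by norm_num)).trans ?_, E⟩
  · rcases k with _ | _ | _ | _ | _ | _ | k
    · omega
    · rw [h.c1]; norm_num
    · rw [p2]; norm_num
    · rw [p3]; norm_num
    · rw [p4]; norm_num
    · rw [p5]; norm_num
    · rw [dg_hi h.gx (h.dX _) (by omega), hz h' (by omega), smul_zero]
  · simp only [NS.aa, NS.hc]
    push_cast
    algebra

end Vale.Agent.P280Z.Qs
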