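import Vale.Agent.P280Z.Qs.Eq4
import Vale.Agent.P280Z.Qs.Q5

/-!
# P280Z, block Qs: the numbers of the quadric of dimension four
-/

open Finset PowerSeries

noncomputable section

namespace Vale.Agent.P280Z.Qs

open Al Al.Cn

variable {A B : Type} [CommRing A] [Algebra ℝ A] [CommRing B] [Algebra ℝ B] {S : NS A B}

namespace Q4

theorem g5 (h : S.OK0 4 2) : S.ee * S.H 3 = 0 := by
  have k : S.hh ^ 5 = 0 := by rw [NS.hh, ← map_pow, hz h (by norm_num), map_zero]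
  have k4 := Hz h (le_refl 4)
  simp only [NS.H, Hn, NS.aa, NS.ee] at k4 ⊢
  linear_combination S.hh * k4 - k

theorem pos (h : S.OK0 4 2) : 0 < J S (S.aa * S.ee ^ 2) := by
  obtain ⟨D, D0, hD⟩ := h.D
  have L := lei S _ _ h
  have e : S.H 2 = (-S.τ) ^ 2 + (3 • S.hh - 3 • S.τ) * S.es S.η := by
    simp only [NS.H, Hn, NS.aa, NS.ee, NS.hc, NS.hh]
    ring
  have e1 : S.el (S.H 2) = algebraMap ℝ A D := by
    rw [e, map_add, hD, h.proj, map_sub, map_nsmul, map_nsmul,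
      lo h (by norm_num : 1 < 2) (dh h), lo h (by norm_num : 1 < 2) h.dτ]
    simp
  have e2 := int_el h (S.H 2) (S.η ^ 4)
  rw [L.ker _ _ (by rw [← L.pow]; exact L.TT _), Tη h, e1, ← Algebra.smul_def, map_smul] at e2
  have e3 : S.H 2 * S.H 3 = S.aa * S.ee ^ 2 := by
    have k4 := Hz h (le_refl 4)
    simp only [NS.H, Hn] at k4 ⊢
    linear_combination S.aa * k4
  rw [← e3, ← e2]
  exact mul_pos D0 h.vol

theorem dec (h : S.OK 4 2) {b : A} (hb : S.GX.Dg 2 b) :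
    ∃ (x : ℝ) (u : A), S.GX.Dg 2 u ∧ S.η * u = 0 ∧ b = x • S.η ^ 2 + u := by
  obtain ⟨x, hx⟩ := top1 h (h.gx.dg_mul 1 2 _ _ h.dη hb)
  exact ⟨x, b - x • S.η ^ 2, dg_sub hb (Elr.dg_pow h.gx h.dη 2) x, by rw [mul_sub, hx]; algebra,
    by ring⟩

theorem a1 (h : S.OK0 4 2) {u : A} (k : S.η * u = 0) : S.es u = -S.hc * S.T (S.es u) := by
  have := congrArg (fun a => S.T (S.es a)) k
  simp only [map_mul, map_zero, (lei S _ _ h).mul, h.Tη] at this
  simp only [NS.hc, NS.hh]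
  linear_combination this

theorem a2 (h : S.OK0 4 2) {u : A} (k : S.η * u = 0) : S.ee * S.T (S.es u) = 0 := by
  have := congrArg S.es k
  rw [map_mul, map_zero] at this
  simp only [NS.ee, NS.hh]
  linear_combination S.es S.η * a1 h k - this

theorem a3 (h : S.OK0 4 2) {u w : A} {p : ℝ} (k : S.η * u = 0) (k' : S.η * w = 0)
    (e : u * w = p • S.η ^ 4) : S.aa * S.T (S.es u) * S.T (S.es w) + p • S.H 3 = 0 := by
  have := congrArg (fun a => S.T (S.es a)) e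
  simp only [map_mul, map_smul, (lei S _ _ h).mul, Tη h 3] at this
  rw [← this]
  have b := a1 h k
  have b' := a1 h k'
  simp only [NS.aa, NS.hc] at b b' ⊢
  linear_combination S.T (S.es u) * b' + S.T (S.es w) * b

end Q4

/-- the numbers of `Q⁴` -/
theorem q4 (h : S.OK 4 2) (td : S.GX.int (coeff 4 (Ex (C 0 + TL S.pX))) = 1)
    (hm : ∃ m : ℤ, S.GX.int (S.pX 1 ^ 4) = m) : Out S 4 2 := by
  have h' := h.toOK0
  obtain ⟨m, hm⟩ := hm
  obtain ⟨x2, w, dw, hw, p2⟩ := Q4.dec h (h.dX 2)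
  obtain ⟨x3, p3⟩ := top1 h (h.dX 3)
  obtain ⟨x4, p4⟩ := top0 h' (h.dX 4)
  obtain ⟨q, hq⟩ := top0 h' (h.gx.dg_mul 2 2 _ _ dw dw)
  have tz : ∀ k, 4 < k → S.T (S.es (S.pX k)) = 0 := fun k hk => by
    rw [dg_hi h.gx (h.dX k) hk, map_zero, map_zero]
  have t : ∀ {k : ℕ} {x : ℝ}, S.pX (k + 1) = x • S.η ^ (k + 1) →
      S.T (S.es (S.pX (k + 1))) = x • S.H k := fun e => by rw [e, map_smul, map_smul, Tη h']
  obtain ⟨f2, n2, nk⟩ := nw2 h'
  have c := ch h'
  rw [Nat.cast_ofNat] at c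
  obtain ⟨a, a'⟩ := alg4 (x2 := x2) (Hz h' (le_refl 4)) (Q4.g5 h') (Q4.a2 h' hw) (Q4.a3 h' hw hw hq)
    (fun c e => by
      have := congrArg (J S) e
      rw [map_smul, map_zero, smul_eq_mul] at this
      exact (mul_eq_zero.1 this).resolve_right (Q4.pos h').ne') (uu_eq S) c
    (by rw [p2, map_add, map_add, map_smul, map_smul, Tη h' 1]; rfl) (t p3) (t p4)
    (tz 5 (by norm_num)) (tz 6 (by norm_num)) n2 nk
  have e1 : coeff 4 (Ex (C 0 + TL S.pX)) = (2 / 3 - 1 / 12 * x2 + 1 / 1152 * (x2 ^ 2 + q) +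
      1 / 2880 * x4 : ℝ) • S.η ^ 4 := by
    rw [Hr.coeff_td _ _ (by norm_num), Hr.tdx, h.c1, p2, p4]
    push_cast
    linear_combination (norm := algebra) ((-1 / 12 + x2 / 576 : ℝ) • S.η) * hw +
      (1 / 1152 : ℝ) • hq
  have e2 : S.pX 1 ^ 4 = (256 : ℝ) • S.η ^ 4 := by
    rw [h.c1]
    push_cast
    algebra
  rw [e1, map_smul, smul_eq_mul] at td
  rw [e2, map_smul, smul_eq_mul] at hm
  rcases a with ⟨rfl, rfl, rfl, rfl⟩ | ⟨rfl, rfl, rfl⟩ | ⟨rfl, rfl, rfl | rfl⟩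
  swap
  · have : 121 * m = 36864 := by exact_mod_cast (by linarith : (121 * m : ℝ) = 36864)
    omega
  swap
  · have : 49 * m = 18432 := by exact_mod_cast (by linarith : (49 * m : ℝ) = 18432)
    omega
  swap
  · have : 181 * m = 73728 := by exact_mod_cast (by linarith : (181 * m : ℝ) = 73728)
    omega
  obtain rfl : w = 0 := pd_dg (k := 2) h.gx dw rfl fun b hb => by
    obtain ⟨x, u, du, hu, rfl⟩ := Q4.dec h hb
    obtain ⟨p, hp⟩ := top0 h' (h.gx.dg_mul 2 2 _ _ dw du)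
    obtain rfl : p = 0 := by linarith [a' _ p (Q4.a2 h' hu) (Q4.a3 h' hw hu hp)]
    rw [← map_zero S.GX.int]
    congr 1
    linear_combination (norm := algebra) (x • S.η) * hw + hp
  rw [add_zero] at p2
  have q1 := c.q1
  have q2 := c.q2
  simp only [t p2, t p3] at q1 q2
  have E : ∀ k, 1 ≤ k → k ≤ 2 →
      S.pE k = (((4 : ℕ) : ℝ) + 2) • S.hc ^ k - S.aa ^ k - (2 * S.hc) ^ k - (-S.τ) ^ k := fun k k1 k3 => by
    interval_cases k
    all_goals
      simp only [hE, bt, sum_range_succ, sum_range_zero, Nat.choose, Nat.reduceSub, Nat.reduceAdd,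
        Nat.sub_self, q0 h', q1, q2, NS.uu, NS.H, Hn, NS.aa, NS.ee, NS.hc]
      push_cast
      algebra
  refine ⟨fun k hk => ?_, by linarith, (E 1 le_rfl (by norm_num)).trans ?_, E⟩
  · rcases k with _ | _ | _ | _ | _ | k
    · omega
    · rw [h.c1]; norm_num
    · rw [p2]; norm_num
    · rw [p3]; norm_num
    · rw [p4]; norm_num
    · rw [dg_hi h.gx (h.dX _) (by omega), hz h' (by omega), smul_zero]
  · simp only [NS.aa, NS.hc]
    push_cast
    algebra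

end Vale.Agent.P280Z.Qs
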