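import Vale.Agent.P280Z.Qs.Q5
import Vale.Agent.P280Z.R1.Defs

/-!
# P280Z, block Qs: the numbers of the quadric of dimension three
-/

open Finset PowerSeries

noncomputable section

namespace Vale.Agent.P280Z.Qs

open Al Al.Cn

variable {A B : Type} [CommRing A] [Algebra ℝ A] [CommRing B] [Algebra ℝ B] {S : NS A B} {n : ℕ}

namespace Q3

/-- the power sums of one root -/
theorem pw (h : S.OK0 n 1) (k : ℕ) : S.pE k = S.pE 1 ^ k := by
  obtain ⟨s, s0, s1⟩ : ∃ s : ℕ → B, s 0 = 3 ∧ ∀ k, s (k + 1) = S.pE (k + 1) :=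
    ⟨fun k => if k = 0 then 3 else S.pE k, rfl, fun _ => rfl⟩
  have z := h.rank _ (ne_spec S.pE)
  obtain ⟨n1, n2, n3⟩ := newton3 (s := s) (e := ne S.pE)
    ⟨(ne_spec S.pE).1, fun j => by simp only [s1]; exact (ne_spec S.pE).2 j⟩ s0
    fun j hj => z j (by omega)
  simp only [z 3 (by norm_num), z 2 (by norm_num), zero_mul, add_zero, sub_zero, mul_zero, s1,
    ← n1, zero_add] at n2 n3
  induction k with
  | zero => rw [h.E0, pow_zero, Nat.cast_one]
  | succ k ih =>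
    rcases k with _ | _ | k
    · exact (pow_one _).symm
    · exact n2.trans (sq _).symm
    · rw [n3, ih, ← pow_succ']

theorem qw (h : S.OK0 n 1) (k : ℕ) : S.Q k = S.Q 1 ^ k := by
  have : S.Q 1 = S.pE 1 + (2 : ℝ)⁻¹ • S.τ := by
    rw [hQ, bt_succ, bt_zero, bt_zero, h.E0]
    push_cast
    ring
  rw [this, hQ, bt, add_pow]
  exact sum_congr rfl fun j _ => by rw [pw h j]; ring

end Q3

/-- the numbers of `Q³` -/
theorem q3 (h : S.OK 3 1) (x : S.Xt 3 1) : Out S 3 1 := by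
  have h' := h.toOK0
  have L := lei S _ _ h'
  obtain ⟨D, D0, hD⟩ := h.D
  rw [pow_one] at hD
  obtain ⟨x2, p2⟩ := top1 h (h.dX 2)
  obtain ⟨x3, p3⟩ := top0 h' (h.dX 3)
  have t : ∀ {k : ℕ} {x : ℝ}, S.pX (k + 1) = x • S.η ^ (k + 1) →
      S.T (S.es (S.pX (k + 1))) = x • S.H k := fun e => by rw [e, map_smul, map_smul, Tη h']
  have t4 : S.T (S.es (S.pX 4)) = 0 := by
    rw [dg_hi h.gx (h.dX 4) (by norm_num), map_zero, map_zero]
  have c := ch h'
  have q1 := c.q1
  have q2 := c.q2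
  have q3 := c.q3
  have g3 := Hz h' (le_refl 3)
  rw [Q3.qw h'] at q2 q3
  simp only [t p2, NS.H, Hn] at q1
  simp only [t p3, t4, q1, uu_eq, NS.H, Hn, Nat.cast_one] at q2 q3 g3
  have e0 : S.el S.hh = 0 := by
    rw [← one_mul S.hh, NS.hh, h.proj, lo h' Nat.one_pos h.gu.dg_one, zero_mul]
  have eτ : S.el S.τ = -algebraMap ℝ A D := by rw [← hD, map_neg, neg_neg]
  have pos : J S (S.aa * S.ee) = D * S.GX.int (S.η ^ 3) := by
    have e2 := int_el h' S.hc (S.η ^ 3)
    rw [NS.hc, map_sub, e0, eτ, zero_sub, neg_neg, ← Algebra.smul_def, map_smul, map_pow S.es,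
      show (S.hh - S.τ) * S.es S.η ^ 3 = S.ee * S.hh ^ (1 + 1) by
        simp only [NS.ee, NS.hc, NS.hh]; ring, L.ker _ _ L.ee, L.pow] at e2
    rw [mul_comm]
    exact e2.symm
  have n1 : ∀ c : ℝ, c • (S.aa * S.ee) = 0 → c = 0 := fun c e => by
    have := congrArg (J S) e
    rw [map_smul, map_zero, smul_eq_mul, pos] at this
    exact (mul_eq_zero.1 this).resolve_right (mul_pos D0 h.vol).ne'
  have a3 : x2 ^ 2 / 2 - x3 / 3 - 3 / 2 = 0 := n1 _ <| by
    linear_combination (norm := algebra) S.aa * q2 - (x2 ^ 2 / 4 - x3 / 3 + 3 / 4 : ℝ) • g3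
  have a2 : (x2 ^ 3 - x2) / 4 = 0 := n1 _ <| by
    linear_combination (norm := algebra) q3 - ((x2 ^ 3 + x2) / 8 : ℝ) • g3
  have td := x.td
  have e1 : coeff 3 (Ex (C 0 + TL S.pX)) = (9 / 16 - x2 / 16 : ℝ) • S.η ^ 3 := by
    rw [Hr.coeff_td _ _ (by norm_num), Hr.tdx, h.c1, p2]
    push_cast
    algebra
  rw [e1, map_smul, smul_eq_mul] at td
  have c1 : S.pX 1 = (3 : ℝ) • S.η := by rw [h.c1]; norm_num
  have E : S.pE 1 = (x2 / 2) • S.aa - (1 / 2 : ℝ) • S.τ := by
    simp only [hE, bt, sum_range_succ, sum_range_zero, Nat.choose, Nat.reduceSub, Nat.reduceAdd,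
      Nat.sub_self, q0 h', q1]
    push_cast
    algebra
  obtain rfl | rfl | rfl : x2 = 1 ∨ x2 = 0 ∨ x2 = -1 := by
    have : (x2 - 1) * (x2 * (x2 + 1)) = 0 := by linear_combination 4 * a2
    simpa only [mul_eq_zero, sub_eq_zero, add_eq_zero_iff_eq_neg] using this
  · obtain rfl : x3 = -3 := by linarith
    have E1 : S.pE 1 = S.hc := by
      rw [E]; simp only [NS.aa, NS.hc]; algebra
    refine ⟨fun k hk => ?_, by linarith, by rw [E1, Nat.cast_one, one_smul], fun k k1 k3 => ?_⟩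
    · rcases k with _ | _ | _ | _ | k
      · omega
      · rw [c1]; norm_num
      · rw [p2]; norm_num
      · rw [p3]; norm_num
      · rw [dg_hi h.gx (h.dX _) (by omega), hz h' (by omega), smul_zero]
    · obtain rfl : k = 1 := by omega
      rw [E1]; simp only [NS.aa, NS.hc]; push_cast; algebra
  · exfalso
    obtain rfl : x3 = -9 / 2 := by linarith
    have E1 : S.pE 1 = (1 / 2 : ℝ) • (-S.τ) + (0 : ℝ) • S.hh := by rw [E]; algebra
    have o := x.one _ _ (by norm_num) E1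
    rw [NS.χF, Hr.coeff_td _ _ (by norm_num), Hr.tdx, E1] at o
    simp only [Int.cast_zero, zero_smul, add_zero, zero_add, map_smul, hD] at o
    obtain ⟨z, hz⟩ := x.intU 1 3 0 rfl
    have e3 : S.es (S.pX 1) ^ 1 * S.τ ^ 3 * S.pE 1 ^ 0 =
        ((6 : ℝ) • S.τ - (12 : ℝ) • S.hh) * S.es (S.η ^ 3) := by
      rw [c1, map_smul, map_pow]
      simp only [NS.aa, NS.ee, NS.hc, NS.hh] at q2 ⊢
      linear_combination (norm := algebra)
        ((4 / 3 : ℝ) • (S.es S.η * (S.τ + 2 * S.es S.η))) * q2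
    have o' : S.el ((6 : ℝ) • S.τ - (12 : ℝ) • S.hh) = (-24 : ℝ) • 1 := by
      rw [map_sub, map_smul, map_smul, e0, eτ]
      linear_combination (norm := algebra) (-24 : ℝ) • o
    rw [e3, ← h.el_int, h.proj, o', smul_mul_assoc, one_mul, map_smul, smul_eq_mul] at hz
    have : 3 * z = -128 := by exact_mod_cast (by linarith : (3 * z : ℝ) = -128)
    omega
  · exfalso
    obtain ⟨z, hz⟩ := x.intX
    rw [c1, smul_pow, map_smul, smul_eq_mul] at hz
    have : 5 * z = 216 := by exact_mod_cast (by linarith : (5 * z : ℝ) = 216)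
    omega

end Vale.Agent.P280Z.Qs
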