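import Vale.Agent.P280Z.Qs.Q6b
import Vale.Agent.P280Z.Qs.Q5

/-!
# P280Z, block Qs: the numbers of the quadric of dimension six
-/

open Finset PowerSeries

noncomputable section

namespace Vale.Agent.P280Z.Qs

open Al Al.Cn Q6

variable {A B : Type} [CommRing A] [Algebra ℝ A] [CommRing B] [Algebra ℝ B] {S : NS A B}

/-- the Euler characteristic of the class `τ` on the fibres of `e` vanishes if `τ - K` is
positive -/
def Van (S : NS A B) (r : ℕ) : Prop := ∀ lam mu : ℝ, 0 < lam →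
  S.τ + S.pE 1 = lam • (-S.τ) + mu • S.hh → S.el (coeff r (Ex (C S.τ + TL S.pE))) = 0

theorem q6 (h : S.OK 6 4) (td : S.GX.int (coeff 6 (Ex (C 0 + TL S.pX))) = 1)
    (hm : ∃ m : ℤ, S.GX.int (S.pX 1 ^ 6) = m) (hv : Van S 4) : Out S 6 4 := by
  have h' := h.toOK0
  obtain ⟨m, hm⟩ := hm
  obtain ⟨x2, p2⟩ := two h (h.dX 2)
  obtain ⟨x3, y, dy, hy, p3⟩ := three h (h.dX 3)
  obtain ⟨x4, p4⟩ := four h (h.dX 4)
  obtain ⟨x5, p5⟩ := top1 (n := 4) h (h.dX 5)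
  obtain ⟨x6, p6⟩ := top0 h' (h.dX 6)
  obtain ⟨q, hq⟩ := top0 h' (h.gx.dg_mul 3 3 _ _ dy dy)
  have tz : ∀ k, 6 < k → S.T (S.es (S.pX k)) = 0 := fun k hk => by
    rw [dg_hi h.gx (h.dX k) hk, map_zero, map_zero]
  have t : ∀ {k : ℕ} {x : ℝ}, S.pX (k + 1) = x • S.η ^ (k + 1) →
      S.T (S.es (S.pX (k + 1))) = x • S.H k := fun e => by rw [e, map_smul, map_smul, Tη h']
  have t3 : S.T (S.es (S.pX 3)) = x3 • S.H 2 + S.T (S.es y) := by
    rw [p3, map_add, map_add, map_smul, map_smul, Tη h']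
  obtain ⟨f2, f3, f4, n2, n3, n4, nk⟩ := nw4 h'
  have c := ch h'
  have c8 := q8 h'
  rw [Nat.cast_ofNat] at c c8
  have R := rel h'
  have P : Pr S.aa S.ee _ _ q := ⟨(et h' hy).2, att h' hy hy hq⟩
  have q1 := c.q1
  have q2 := c.q2
  have q3 := c.q3
  have q4 := c.q4
  simp only [t p2, t3, t p4, t p5] at q1 q2 q3 q4
  rw [q1] at q3
  rw [q2] at q4
  rcases core (x2 := x2) (x3 := x3) (x4 := x4) (x5 := x5) (x6 := x6) R P (uu_eq S) c c8 (t p2)
    (t3.trans (by simp only [NS.H, Hn]; algebra)) ((t p4).trans (by simp only [NS.H, Hn]; algebra))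
    ((t p5).trans (by simp only [NS.H, Hn]; algebra))
    ((t p6).trans (by simp only [NS.H, Hn]; algebra)) (tz 7 (by norm_num)) (tz 8 (by norm_num))
    (tz 9 (by norm_num)) n2 n3 n4 nk with ⟨rfl, rfl, hc⟩ | ⟨b2, rfl, rfl, rfl, rfl, hp⟩
  · refine (hc ?_).elim
    have e1 : S.pE 1 = -2 * S.τ := by
      simp only [hE, bt, sum_range_succ, sum_range_zero, Nat.choose, Nat.reduceSub, Nat.reduceAdd,
        Nat.sub_self, q0 h', q1]
      push_cast
      algebra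
    have e2 := h.el_int (coeff 4 (Ex (C S.τ + TL S.pE)) * S.es (S.η ^ 6))
    rw [h.proj, hv 1 0 one_pos (by rw [e1]; algebra), zero_mul, map_zero, map_pow] at e2
    obtain ⟨t, ht⟩ : ∃ t, t = S.T (S.es y) := ⟨_, rfl⟩
    rw [← ht] at P q2 q4
    have s5 := P.s5 R
    have s0 := P.et
    have s7 := h7 h'
    have e3 : coeff 4 (Ex (C S.τ + TL S.pE)) * S.hh ^ 6 = S.hh * (((25 * x3 ^ 2 + 30 * x3 - 25 * q +
        18 * x5 - 108) / 259200 : ℝ) • (S.aa * S.ee ^ 4)) -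
        ((25 * x3 ^ 2 + 30 * x3 + 18 * x5 - 108) / 259200 : ℝ) • S.ee ^ 5 := by
      have eτ : S.τ = S.hh - S.hc := by rw [NS.hc]; ring
      rw [Hr.coeff_td _ _ (by norm_num), Hr.tdx, e1]
      simp only [hE, bt, sum_range_succ, sum_range_zero, Nat.choose, Nat.reduceSub, Nat.reduceAdd,
        Nat.sub_self, q0 h', q1, q2, q3, q4, NS.uu, NS.H, Hn, NS.aa, NS.ee, eτ] at s5 s0 ⊢
      push_cast
      linear_combination (norm := algebra) (((1/5184)*x3 - (1/4320) : ℝ) • (S.hc * t) +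
        ((1/5184)*x3^2 - (1/8640)*x3 + (1/14400)*x5 + (1/600) : ℝ) • S.hc ^ 3 +
        ((1/5184)*x3 + (1/8640) : ℝ) • (S.hh * t) +
        ((1/3456)*x3^2 + (1/14400)*x5 - (1/400) : ℝ) • (S.hh * S.hc ^ 2) +
        ((1/5184)*x3^2 - (1/8640)*x3 + (1/14400)*x5 + (1/600) : ℝ) • (S.hh ^ 2 * S.hc) +
        ((1/10368)*x3^2 + (1/8640)*x3 + (1/14400)*x5 - (1/2400) : ℝ) • S.hh ^ 3) * s7 +
        (1 / 10368 : ℝ) • (S.hh * s5 - (5 * S.hh ^ 4 + 10 * S.hh ^ 3 * S.hc +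
          10 * S.hh ^ 2 * S.hc ^ 2 + 5 * S.hh * S.hc ^ 3 + S.hc ^ 4) * t * s0) +
        ((1/5184)*x3 + (1/8640) : ℝ) • (S.hh ^ 5 * S.hc * s0)
    rw [show S.es S.η = S.hh from rfl, e3, map_sub, map_smul _ _ (S.ee ^ 5), ie5 h', smul_zero,
      sub_zero] at e2
    linear_combination 259200 * Jnz h' e2.symm
  have y0 : y = 0 := pd_dg h.gx dy (k := 3) rfl fun b hb => by
    obtain ⟨x, z, dz, hz, rfl⟩ := three h hb
    obtain ⟨q', hq'⟩ := top0 h' (h.gx.dg_mul 3 3 _ _ dy dz)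
    rw [hp _ _ ⟨(et h' hz).2, att h' hy hz hq'⟩, zero_smul] at hq'
    rw [← map_zero S.GX.int]
    congr 1
    linear_combination (norm := algebra) hq' + x • (S.η ^ 2 * hy)
  subst y0
  have e1 : coeff 6 (Ex (C 0 + TL S.pX)) = (81 / 80 - 9 / 64 * x2 + 1 / 256 * x2 ^ 2 -
      1 / 320 * x2 - 1 / 82944 * x2 ^ 3 + 1 / 34560 * x2 ^ 2 + 1 / 12960 * x2 : ℝ) • S.η ^ 6 := by
    rw [Hr.coeff_td _ _ (by norm_num), Hr.tdx, h.c1, p2, p4, p6]
    push_cast
    algebra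
  have e2 : S.pX 1 ^ 6 = (46656 : ℝ) • S.η ^ 6 := by
    rw [h.c1]
    push_cast
    algebra
  rw [e1, map_smul, smul_eq_mul] at td
  rw [e2, map_smul, smul_eq_mul] at hm
  obtain rfl : x2 = 4 := by
    rcases mul_eq_zero.1 (show (x2 - 4) * (x2 + 4) = 0 by linear_combination b2) with a | a
    · linarith
    · obtain rfl : x2 = -4 := by linarith
      have : 1783 * m = 50388480 := by exact_mod_cast (by linarith : (1783 * m : ℝ) = 50388480)
      omega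
  have E : ∀ k, 1 ≤ k → k ≤ 4 → S.pE k =
      (((6 : ℕ) : ℝ) + 2) • S.hc ^ k - S.aa ^ k - (2 * S.hc) ^ k - (-S.τ) ^ k := fun k k1 k3 => by
    interval_cases k
    all_goals
      simp only [hE, bt, sum_range_succ, sum_range_zero, Nat.choose, Nat.reduceSub, Nat.reduceAdd,
        Nat.sub_self, q0 h', q1, q2, q3, q4, NS.uu, NS.H, Hn, NS.aa, NS.ee, NS.hc, map_zero]
      push_cast
      algebra
  refine ⟨fun k hk => ?_, by linarith, (E 1 le_rfl (by norm_num)).trans ?_, E⟩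
  · rcases k with _ | _ | _ | _ | _ | _ | _ | k
    · omega
    · rw [h.c1]; norm_num
    · rw [p2]; norm_num
    · rw [p3]; norm_num
    · rw [p4]; norm_num
    · rw [p5]; norm_num
    · rw [p6]; norm_num
    · rw [dg_hi h.gx (h.dX _) (by omega), hz h' (by omega), smul_zero]
  · simp only [NS.aa, NS.hc]
    push_cast
    algebra

end Vale.Agent.P280Z.Qs
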