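import Vale.Agent.P280Z.Qs.Eq41
import Vale.Agent.P280Z.G2.WlD
import Vale.Agent.P280Z.Ma.Nx

/-!
# P280Z, block Qs: dimension four and fibres of dimension one do not occur
-/

noncomputable section

namespace Vale.Agent.P280Z.Qs

open Al Al.Cn

variable {A B : Type} [CommRing A] [Algebra ℝ A] [CommRing B] [Algebra ℝ B] {S : NS A B} {n r : ℕ}

namespace S41

theorem a1 (h : S.OK0 n r) {u : A} (k : S.η * u = 0) : S.es u = -S.hc * S.T (S.es u) := by
  have := congrArg (fun a => S.T (S.es a)) k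
  simp only [map_mul, map_zero, (lei S _ _ h).mul, h.Tη] at this
  simp only [NS.hc, NS.hh]
  linear_combination this

theorem a2 (h : S.OK0 n r) {u : A} (k : S.η * u = 0) : S.ee * S.T (S.es u) = 0 := by
  have := congrArg S.es k
  rw [map_mul, map_zero] at this
  simp only [NS.ee, NS.hh]
  linear_combination S.es S.η * a1 h k - this

theorem a3 (h : S.OK0 n r) {u : A} {p : ℝ} (k : S.η * u = 0) (e : u * u = p • S.η ^ 4) :
    S.aa * S.T (S.es u) * S.T (S.es u) + p • S.H 3 = 0 := by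
  have := congrArg (fun a => S.T (S.es a)) e
  simp only [map_mul, map_smul, (lei S _ _ h).mul, Tη h 3] at this
  rw [← this]
  have b := a1 h k
  simp only [NS.aa, NS.hc] at b ⊢
  linear_combination 2 * S.T (S.es u) * b

/-- integrals against powers of `η` -/
theorem ie (h : S.OK0 n r) {x : B} (hx : S.T x = 0) (k : ℕ) :
    S.GX.int (S.el x * S.η ^ (k + 1)) = J S (x * S.H k) := by
  rw [int_el h, (lei S _ _ h).ker _ _ hx, Tη h]

theorem pos (h : S.OK0 (n + 1) 1) : 0 < J S (S.aa * S.H n) := by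
  obtain ⟨D, D0, hD⟩ := h.D
  have e1 : S.el S.aa = algebraMap ℝ A D := by
    rw [show S.aa = (-S.τ) ^ 1 + (1 + 1) * S.es S.η by simp only [NS.aa, NS.hc, NS.hh]; ring,
      map_add, hD, h.proj, map_add, lo h one_pos h.gu.dg_one]
    simp
  rw [← ie h (lei S _ _ h).aa, e1, ← Algebra.smul_def, map_smul]
  exact mul_pos D0 h.vol

/-- the index theorem for invariant classes -/
theorem wl (h : S.OK (n + 2) 1) (w : S.WL (n + 2)) {x y z : ℝ} {b : B}
    (eb : b = x • S.hh + y • S.τ + z • S.pE 1) (tb : S.T b = 0) (k0 : J S (b * S.H (n + 1)) = 0)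
    (k1 : 0 ≤ J S (b * b * S.H n)) : b = 0 := by
  have h' := h.toOK0
  have db : S.GU.Dg 1 b := by
    rw [eb, GA.Dg, map_add, map_add, map_smul, map_smul, map_smul, dh h', h.dτ, h.dE 1]
  obtain ⟨c0, hc0⟩ := h.h0 _ (dl h' (k := 0) db)
  rw [← ie h' tb, hc0, ← Algebra.smul_def, map_smul, smul_eq_mul] at k0
  rw [(mul_eq_zero.1 k0).resolve_right h.vol.ne', map_zero] at hc0
  obtain ⟨w1, w2⟩ := w _ _ _ b eb hc0
  obtain ⟨c1, hc1⟩ := h.b2 _ (dl h' (k := 1) (h.gu.dg_mul 1 1 _ _ db db))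
  rw [← ie h' (by rw [(lei S _ _ h').ker _ _ tb, tb, mul_zero])] at k1
  have k2 := le_antisymm w1 k1
  rw [hc1, smul_mul_assoc, ← pow_succ', map_smul, smul_eq_mul] at k2
  rw [(mul_eq_zero.1 k2).resolve_right h.vol.ne', zero_smul] at hc1
  obtain ⟨c, rfl⟩ := w2 hc1
  rw [map_smul, NS.hh, h.Tη] at tb
  rw [← one_mul S.hh, ← smul_mul_assoc, tb, zero_mul]

end S41

/-- the case of dimension four and fibres of dimension one does not occur -/
theorem s41 (h : S.OK 4 1) (ex : S.Ex 4 4) (w : S.WL 4) : False := by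
  have h' := h.toOK0
  have L := lei S _ _ h'
  obtain ⟨x2, hx2⟩ := top1 h (h.gx.dg_mul 1 2 _ _ h.dη (h.dX 2))
  obtain ⟨u, hu⟩ : ∃ u, u = S.pX 2 - x2 • S.η ^ 2 := ⟨_, rfl⟩
  have du : S.GX.Dg 2 u := hu ▸ dg_sub (h.dX 2) (Elr.dg_pow h.gx h.dη 2) x2
  have hw : S.η * u = 0 := by rw [hu, mul_sub, hx2]; algebra
  obtain ⟨x3, p3⟩ := top1 h (h.dX 3)
  obtain ⟨x4, p4⟩ := top0 h' (h.dX 4)
  obtain ⟨q, hq⟩ := top0 h' (h.gx.dg_mul 2 2 _ _ du du)
  have c := ch h'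
  have q1 := c.q1
  have q2 := c.q2
  have q3 := c.q3
  have q4 := c.q4
  simp only [eq_add_of_sub_eq' hu.symm, p3, p4, dg_hi h.gx (h.dX 5) (by norm_num), map_add, map_smul,
    Tη h', map_zero, Qk h' 2, Qk h' 3, Qk h' 4, Nat.cast_one] at q1 q2 q3 q4
  obtain ⟨s, hs⟩ : ∃ s, s = S.T (S.es u) := ⟨_, rfl⟩
  have hQ : S.Q 1 = (x2 / 2) • S.aa + (1 / 2 : ℝ) • s := by
    rw [q1, hs, show S.H 1 = S.aa from rfl]; algebra
  have E3 : 3 * S.Q 1 ^ 2 + 9 * S.uu = x3 • S.H 2 := by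
    linear_combination (norm := algebra) 3 * q2
  have E4 : 4 * S.Q 1 ^ 3 + 4 * S.Q 1 * S.uu = x4 • S.H 3 := by
    linear_combination (norm := algebra) 4 * q3
  have E5 : 5 * S.Q 1 ^ 4 + 10 * S.Q 1 ^ 2 * S.uu + 33 * S.uu ^ 2 = 0 := by
    linear_combination (norm := algebra) 5 * q4
  have V := S41.pos h'
  obtain ⟨d, k0, k1⟩ := alg41 ((J S (S.aa * S.H 3))⁻¹ • J S) (Hz h' (le_refl 4))
    (hs ▸ S41.a2 h' hw) (hs ▸ S41.a3 h' hw hq) (inv_mul_cancel₀ V.ne') (uu_eq S) hQ E3 E4 E5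
  have b0 : s - d • S.aa = 0 := S41.wl (x := -2 * (x2 + d)) (y := 1 + x2 + d) (z := 2) h w (by
      have := Q1 h'
      simp only [NS.aa, NS.hc] at hQ ⊢
      linear_combination (norm := algebra) 2 * this - 2 * hQ)
    (by rw [map_sub, map_smul, L.aa, hs, L.TT, smul_zero, sub_zero])
    ((mul_eq_zero.1 k0).resolve_left (inv_pos.2 V).ne')
    (nonneg_of_mul_nonneg_right k1 (inv_pos.2 V))
  obtain ⟨TA, TB, ty⟩ := ex.tys
  have th := ty.es _ ty.η
  refine pl41 (g := x2 / 2 + d / 2) (J S) (Hz h' (le_refl 4)) ex.vol (fun k k' => ?_) (uu_eq S)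
    (by rw [hQ, sub_eq_zero.1 b0]; algebra) E3 E4 E5
  have := ty.hrK 2 0 rfl _ (mul_mem th (sub_mem th ty.τ)) L.ee
    (h.gu.dg_mul 1 1 _ _ (dh h') (dc h')) (by rw [zero_add, pow_one]; exact k) k'
  rwa [pow_zero, mul_one, neg_one_sq, one_mul] at this

end Vale.Agent.P280Z.Qs
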