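import Vale.Agent.P280Z.Qs.S41
import Vale.Agent.P280Z.R1.Defs
import Vale.Agent.P280Z.G2.Defs
import Vale.Agent.P280Z.Hr.Tdx

/-!
# P280Z, block Qs: dimension five and fibres of dimension one
-/

open PowerSeries

noncomputable section

namespace Vale.Agent.P280Z.Qs

open Al Al.Cn

variable {A B : Type} [CommRing A] [Algebra ℝ A] [CommRing B] [Algebra ℝ B] {S : NS A B} {n r : ℕ}

namespace S51

theorem dec (h : S.OK0 n r) (y : B) : y = S.T (S.hh * y) - S.hc * S.T y := by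
  rw [(lei S _ _ h).mul, LeiH.th h, NS.hc]
  ring

theorem g1 (h : S.OK0 n r) {y : B} (k : S.hh ^ 2 * y = 0) :
    S.aa * S.T (S.hh * y) = S.ee * S.T y := by
  have L := lei S _ _ h
  have := congrArg S.T k
  rw [← one_add_one_eq_two, pow_succ, pow_one, mul_assoc, L.mul, LeiH.th h, map_zero] at this
  have d := dec h y
  simp only [NS.aa, NS.ee, NS.hc] at d ⊢
  linear_combination this - S.hh * d

theorem sqr (h : S.OK0 n r) (y : B) :
    S.T (y * y) = 2 * S.T (S.hh * y) * S.T y - S.aa * S.T y ^ 2 := by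
  have d := dec h y
  rw [(lei S _ _ h).mul]
  simp only [NS.aa, NS.hc] at d ⊢
  linear_combination 2 * S.T y * d

theorem elh (h : S.OK0 n 1) : S.el S.hh = 0 := by
  rw [← one_mul S.hh, NS.hh, h.proj, lo h Nat.one_pos h.gu.dg_one, zero_mul]

/-- there is no primitive part -/
theorem prim (h : S.OK 5 1) (ex : S.Ex 5 5) {u : A} {l : ℝ} (du : S.GX.Dg 2 u)
    (hw : S.η ^ 2 * u = 0) (hs : S.T (S.es u) = l • S.aa) : u = 0 := by
  have h' := h.toOK0
  have L := lei S _ _ h'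
  obtain ⟨D, D0, hD⟩ := h.D
  obtain ⟨q, hq⟩ := top1 h (h.gx.dg_mul 2 2 _ _ du du)
  have k1 := g1 h' (y := S.es u) (by rw [NS.hh, ← map_pow, ← map_mul, hw, map_zero])
  have de := h.gu.dg_mul 1 1 _ _ (dh h') (dc h')
  have k2 := (ex.hlK 2 1 rfl).1 (S.T (S.hh * S.es u) - l • S.ee)
    (by rw [map_sub, map_smul, L.TT, L.ee, smul_zero, sub_zero])
    (dg_sub (L.dT 2 _ (h.gu.dg_mul 1 2 _ _ (dh h') (L.de 2 u du))) de l)
    (by rw [hs] at k1; linear_combination (norm := algebra) k1)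
  rw [sub_eq_zero] at k2
  have k3 := sqr h' (S.es u)
  rw [← map_mul, hq, map_smul, map_smul, Tη h', k2, hs] at k3
  have k4 : (q + l ^ 2) • (S.aa * S.H 4) = 0 := by
    have g5 := Hz h' (le_refl 5)
    simp only [NS.H, Hn] at k3 g5 ⊢
    linear_combination (norm := algebra) S.ee * k3 + (q + l ^ 2) • g5
  have k5 := congrArg (J S) k4
  rw [map_smul, map_zero, smul_eq_mul] at k5
  have k6 := (mul_eq_zero.1 k5).resolve_right (S41.pos h').ne'
  by_contra ne
  obtain ⟨TA, TB, ty⟩ := ex.tys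
  have tc : S.hc ∈ TB := sub_mem (ty.es _ ty.η) ty.τ
  have e1 : u = (-l / D) • S.el (S.hc ^ 3) := by
    have e2 : S.hc * S.es u = (-l) • S.hc ^ 3 := by
      rw [dec h' (S.es u), k2, hs]
      simp only [NS.aa, NS.ee]
      algebra
    have e3 := congrArg S.el e2
    rw [h.proj, map_smul, NS.hc, sub_eq_add_neg, map_add, elh h', zero_add, ← pow_one (-S.τ), hD,
      ← Algebra.smul_def] at e3
    rw [div_eq_inv_mul, mul_smul, NS.hc, sub_eq_add_neg, ← pow_one (-S.τ), ← e3, smul_smul,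
      inv_mul_cancel₀ D0.ne', one_smul]
  have k7 := ty.hrX 2 1 rfl u (e1 ▸ TA.smul_mem (ty.el _ (pow_mem tc 3)) _) du hw ne
  rw [hq, smul_mul_assoc, ← pow_add, map_smul, smul_eq_mul] at k7
  nlinarith [h.vol, sq_nonneg l]

end S51

open S51 in
/-- the numbers of the homogeneous space of dimension five and index three -/
theorem pl51 (h : S.OK 5 1) (x : S.Xt 5 1) {μ : ℝ} (hQ : S.Q 1 = μ • S.aa) : G2.Out S := by
  have h' := h.toOK0
  have L := lei S _ _ h'
  have ex : S.Ex 5 5 := x.ex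
  obtain ⟨D, D0, hD⟩ := h.D
  rw [pow_one] at hD
  have V := h.vol
  have hN : J S (S.aa * S.H 4) = D * S.GX.int (S.η ^ 5) := by
    rw [← S41.ie h' L.aa, show S.aa = -S.τ + (2 : ℝ) • S.hh by simp only [NS.aa, NS.hc]; algebra,
      map_add, map_smul, elh h', smul_zero, add_zero, hD, ← Algebra.smul_def, map_smul, smul_eq_mul]
  have d2 := Elr.dg_pow h.gx h.dη 2
  obtain ⟨x2, hx2⟩ := top1 h (h.gx.dg_mul 2 2 _ _ d2 (h.dX 2))
  obtain ⟨x3, p3⟩ := top1 h (h.gx.dg_mul 1 3 _ _ h.dη (h.dX 3))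
  obtain ⟨x4, p4⟩ := top1 h (h.dX 4)
  obtain ⟨x5, p5⟩ := top0 h' (h.dX 5)
  have c := ch h'
  have q1 := c.q1
  have q2 := c.q2
  have q3 := c.q3
  have q4 := c.q4
  have q5 := c.q5
  have p2 : S.pX 2 = x2 • S.η ^ 2 := sub_eq_zero.1 (prim h ex (l := 2 * μ - x2)
    (dg_sub (h.dX 2) d2 x2) (by rw [mul_sub, hx2]; algebra) (by
      rw [map_sub, map_sub, map_smul, map_smul, Tη h', show S.H 1 = S.aa from rfl]
      linear_combination (norm := algebra) 2 * hQ - 2 * q1))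
  obtain ⟨t, ht⟩ : ∃ t, t = S.T (S.es (S.pX 3)) := ⟨_, rfl⟩
  have r3 : S.hh * S.es (S.pX 3) = x3 • S.hh ^ 4 := by
    rw [NS.hh, ← map_mul, p3, map_smul, map_pow]
  have r4 : S.T (S.hh * S.es (S.pX 3)) = x3 • S.H 3 := by rw [r3, map_smul, L.pow]
  have E3 : S.ee * t = x3 • (S.ee * S.H 2) := by
    have d := dec h' (S.es (S.pX 3))
    rw [r4, ← ht] at d
    simp only [NS.H, Hn, NS.aa, NS.ee] at d ⊢
    linear_combination (norm := algebra) S.hh * d - r3
  have E33 := sqr h' (S.es (S.pX 3))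
  rw [← map_mul, dg_hi h.gx (h.gx.dg_mul 3 3 _ _ (h.dX 3) (h.dX 3)) (by norm_num), map_zero,
    map_zero, r4, ← ht] at E33
  have g5 := Hz h' (le_refl 5)
  simp only [p2, p4, p5, dg_hi h.gx (h.dX 6) (by norm_num), map_smul, Tη h', map_zero, Qk h' 2,
    Qk h' 3, Qk h' 4, Qk h' 5, Nat.cast_one, ← ht, hQ, uu_eq] at q1 q2 q3 q4 q5
  have ht' : t = (3 * μ ^ 2 + 9 / 4) • S.aa ^ 2 - (9 : ℝ) • S.ee := by
    linear_combination (norm := algebra) -3 * q2
  clear ht q2
  subst ht'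
  have hE : S.pE 1 = (μ + 1 / 2) • (-S.τ) + (2 * μ) • S.hh := by
    have := Q1 h'
    simp only [NS.aa, NS.hc] at hQ
    linear_combination (norm := algebra) hQ - this
  have one : 0 < μ + 1 / 2 → (μ + 1 / 2) * D = 2 := fun k => by
    have o := x.one _ _ k hE
    rw [NS.χF, Hr.coeff_td _ _ (by norm_num), Hr.tdx, hE] at o
    simp only [Int.cast_zero, zero_smul, add_zero, zero_add, map_smul, map_add, hD, elh h',
      smul_zero] at o
    have o' := congrArg (fun a => S.GX.int (a * S.η ^ 5)) o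
    simp only [smul_mul_assoc, ← Algebra.smul_def, map_smul, smul_eq_mul, one_mul] at o'
    exact mul_right_cancel₀ V.ne' (by linarith)
  simp only [NS.H, Hn] at q1 q3 q4 q5 E3 E33 g5 hN
  obtain ⟨a5, h5⟩ : ∃ a, J S (S.aa ^ 5) = a := ⟨_, rfl⟩
  obtain ⟨a3, h3⟩ : ∃ a, J S (S.aa ^ 3 * S.ee) = a := ⟨_, rfl⟩
  obtain ⟨a1, h1⟩ : ∃ a, J S (S.aa * S.ee ^ 2) = a := ⟨_, rfl⟩
  have key : ∀ (y : B) (c5 c3 c1 : ℝ), y = c5 • S.aa ^ 5 + c3 • (S.aa ^ 3 * S.ee) +
      c1 • (S.aa * S.ee ^ 2) → J S y = c5 * a5 + c3 * a3 + c1 * a1 := fun y _ _ _ k => by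
    simp only [k, map_add, map_smul, h5, h3, h1, smul_eq_mul]
  have kz : ∀ c5 c3 c1 : ℝ, 0 = c5 • S.aa ^ 5 + c3 • (S.aa ^ 3 * S.ee) +
      c1 • (S.aa * S.ee ^ 2) → c5 * a5 + c3 * a3 + c1 * a1 = 0 := fun _ _ _ k => by
    rw [← key _ _ _ _ k, map_zero]
  have v5 : 0 < a5 := h5 ▸ ex.vol
  have n5 := kz 1 (-4) 3 (by linear_combination (norm := algebra) -g5)
  rw [key _ 1 (-3) 1 (by algebra)] at hN
  obtain rfl : x2 = 2 * μ := by
    have := kz (μ - x2 / 2) 0 0 (by linear_combination (norm := algebra) -S.aa ^ 4 * q1)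
    have := (mul_eq_zero.1 (show (μ - x2 / 2) * a5 = 0 by linarith)).resolve_right v5.ne'
    linarith
  have hR := (ex.hlK 2 1 rfl).1 ((4 * μ ^ 3 + μ - x4) • S.aa ^ 2 - (4 * μ - 2 * x4) • S.ee)
    (by rw [map_sub, map_smul, map_smul, sq, L.ker _ _ L.aa, L.aa, L.ee]; simp)
    (dg_sub (by rw [GA.Dg, map_smul, Elr.dg_pow h.gu (da h') 2])
      (h.gu.dg_mul 1 1 _ _ (dh h') (dc h')) _) (by linear_combination (norm := algebra) 4 * q3)
  have td := x.td
  have e1 : coeff 5 (Ex (C 0 + TL S.pX)) =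
      (81 / 1280 - 3 / 64 * μ + 1 / 192 * μ ^ 2 + 1 / 1920 * x4 : ℝ) • S.η ^ 5 := by
    rw [Hr.coeff_td _ _ (by norm_num), Hr.tdx, h.c1, p2, p4]
    push_cast
    algebra
  rw [e1, map_smul, smul_eq_mul] at td
  have c1 : S.pX 1 = (3 : ℝ) • S.η := by rw [h.c1]; norm_num
  obtain ⟨m, hm⟩ := x.intX
  rw [c1, smul_pow, map_smul, smul_eq_mul] at hm
  by_cases h4 : x4 = 2 * μ
  · exfalso
    subst h4
    have k0 := kz (4 * μ ^ 3 - μ) 0 0 (by linear_combination (norm := algebra) -S.aa ^ 3 * hR)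
    have k1 := (mul_eq_zero.1 (show (4 * μ ^ 3 - μ) * a5 = 0 by linarith)).resolve_right v5.ne'
    obtain rfl | rfl | rfl : μ = 0 ∨ μ = 1 / 2 ∨ μ = -1 / 2 := by
      have : μ * ((μ - 1 / 2) * (μ - -1 / 2)) = 0 := by linear_combination 1 / 4 * k1
      simpa only [mul_eq_zero, sub_eq_zero] using this
    · have k2 := kz 0 (9 / 4 - x3) (x3 - 9) (by linear_combination (norm := algebra) -S.aa * E3)
      have k3 := kz (9 / 2 * x3 - 81 / 16) (81 / 2 - 27 * x3) (36 * x3 - 81)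
        (by linear_combination (norm := algebra) E33)
      obtain ⟨z, hz⟩ := x.intU 1 5 0 rfl
      rw [c1, L.int, show S.es ((3 : ℝ) • S.η) ^ 1 * S.τ ^ 5 * S.pE 1 ^ 0 =
        (3 : ℝ) • ((S.τ * S.τ) * ((S.τ * S.τ) * (S.hh ^ (1 + 1) - S.ee))) by
          simp only [map_smul, NS.ee, NS.hc, NS.hh]; algebra, map_smul, L.ker _ _ (LeiH.tt h'),
        L.ker _ _ (LeiH.tt h'), map_sub, L.pow, L.ee] at hz
      have k4 : J S _ = _ := hz
      rw [key _ 3 (-24) 48 (by simp only [NS.H, Hn, NS.aa, NS.ee, NS.hc]; algebra)] at k4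
      have k5 := one (by norm_num)
      obtain rfl : D = 4 := by linarith
      have k6 : a3 = 5120 / 81 + 2 * a1 := by linarith
      have k7 : a5 = 4 * (5120 / 81) + 5 * a1 := by linarith
      subst k6 k7
      have k8 : a1 * (a1 - 5120 / 81) = 0 := by
        linear_combination (-16 / 729 * (9 / 2 * a1 - 9 * (5120 / 81))) * k2 +
          (-16 / 729 * (a1 + 5120 / 81)) * k3
      rcases mul_eq_zero.1 k8 with k | k
      · have : 27 * z = -20480 := by exact_mod_cast (by linarith : (27 * z : ℝ) = -20480)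
        omega
      · have : 27 * z = 5120 := by exact_mod_cast (by linarith : (27 * z : ℝ) = 5120)
        omega
    · have k5 := one (by norm_num)
      obtain rfl : D = 2 := by linarith
      have pk : ∀ k, S.pK k = S.hc ^ k + S.es (S.pX k) - S.τ ^ k := fun k => by
        rw [eq_sub_iff_add_eq', ← h.ses, pEk h', hE, NS.hc]
        congr 2
        algebra
      have k1 : S.pK 1 = (2 : ℝ) • S.aa := by
        rw [pk, c1, map_smul]; simp only [NS.aa, NS.hc, NS.hh]; algebra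
      have o : J S _ = _ := x.oneK 2 two_pos k1
      rw [Hr.coeff_td _ _ (by norm_num), key _ (1 / 120) (-1 / 80) (-1 / 720) (by
        rw [show 5 + 1 - 1 = 5 from rfl, Hr.tdx, k1, pk 2, pk 4, p2, p4]
        simp only [map_smul, map_pow, NS.aa, NS.ee, NS.hc, NS.hh]
        algebra)] at o
      have k2 := kz 0 (3 - x3) (x3 - 9) (by linear_combination (norm := algebra) -S.aa * E3)
      have k3 := kz (3 - x5) (3 * x5 - 19) (33 - x5)
        (by linear_combination (norm := algebra) -5 * S.aa * q4)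
      obtain rfl : a1 = 0 := by linarith
      obtain rfl : a3 = 48 := by linarith
      obtain rfl : a5 = 192 := by linarith
      obtain rfl : x3 = 3 := by linarith
      obtain rfl : x5 = -7 := by linarith
      obtain ⟨TA, TB, ty⟩ := ex.tys
      have e2 : S.τ * S.τ = S.aa ^ 2 - 4 * S.ee := by simp only [NS.aa, NS.ee, NS.hc]; ring
      have k4 : J S (S.τ * S.τ * (S.τ * S.τ) * S.aa ^ 1) = _ :=
        key _ 1 (-8) 16 (by rw [e2]; algebra)
      have k6 : 0 < (-1) ^ 2 * J S _ := ty.hrK 2 1 rfl _ (mul_mem ty.τ ty.τ) (LeiH.tt h')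
        (h.gu.dg_mul 1 1 _ _ h.dτ h.dτ) (by
          rw [e2]; linear_combination (norm := algebra) (1 / 2 : ℝ) • q4 + (2 / 3 : ℝ) • E3)
        fun k => by rw [k, zero_mul, zero_mul, map_zero] at k4; norm_num at k4
      rw [k4] at k6
      norm_num at k6
    · have : 7 * m = 19440 := by exact_mod_cast (by linarith : (7 * m : ℝ) = 19440)
      omega
  have h4' : 4 * μ - 2 * x4 ≠ 0 := fun k => h4 (by linarith)
  obtain ⟨l, hl⟩ : ∃ l : ℝ, (4 * μ - 2 * x4) * l = 4 * μ ^ 3 + μ - x4 :=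
    ⟨_, mul_div_cancel₀ _ h4'⟩
  have he : S.ee = l • S.aa ^ 2 := smul_right_injective B h4' (by
    show _ • S.ee = _ • l • S.aa ^ 2
    rw [smul_smul, hl]
    exact (sub_eq_zero.1 hR).symm)
  have k3 := kz l (-1) 0 (by rw [he]; algebra)
  have k1 := kz (l ^ 2) 0 (-1) (by rw [he]; algebra)
  obtain rfl : l = 1 / 3 := by
    have := (mul_eq_zero.1 (show (l - 1) * (l - 1 / 3) * a5 = 0 by
      linear_combination 1 / 3 * n5 - 4 / 3 * k3 + k1)).resolve_right v5.ne'
    rcases mul_eq_zero.1 this with k | k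
    · obtain rfl : l = 1 := by linarith
      linarith [mul_pos D0 V]
    · linarith
  have k6 := kz (μ * (4 * μ ^ 2 - 1) * (36 * μ ^ 2 - 1)) 0 0 (by
    rw [he] at q5; linear_combination (norm := algebra) -144 * q5)
  obtain rfl : x4 = 12 * μ ^ 3 - μ := by linarith
  have k7 := (mul_eq_zero.1 ((mul_eq_zero.1 (show μ * (4 * μ ^ 2 - 1) * (36 * μ ^ 2 - 1) * a5 = 0
    by linarith)).resolve_right v5.ne')).resolve_left fun k => h4 (by linear_combination 3 * k)
  obtain rfl | rfl : μ = 1 / 6 ∨ μ = -1 / 6 := by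
    have : (μ - 1 / 6) * (μ - -1 / 6) = 0 := by linear_combination 1 / 36 * k7
    simpa only [mul_eq_zero, sub_eq_zero] using this
  · have k5 := one (by norm_num)
    obtain rfl : D = 3 := by linarith
    refine ⟨?_, by rw [hE, NS.hc]; algebra, hD.trans (map_ofNat _ 3), by linarith⟩
    simp only [NS.aa, NS.ee] at he
    linear_combination (norm := algebra) -3 * he
  · exfalso
    have : 77 * m = 262440 := by exact_mod_cast (by linarith : (77 * m : ℝ) = 262440)
    omega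

/-- from the plane hypothesis -/
theorem n51p (h : S.OK 5 1) (x : S.Xt 5 1) (hp : ∃ a b : ℝ, S.pE 1 = a • (-S.τ) + b • S.hh) :
    G2.Out S := by
  obtain ⟨a, b, hp⟩ := hp
  have h' := h.toOK0
  have e := Q1 h'
  have k : S.T (S.Q 1) = 0 := h.inv 1
  rw [e, hp] at k
  simp only [map_add, map_smul, map_neg, h.Tτ, LeiH.th h'] at k
  refine pl51 h x (μ := a - 1 / 2) ?_
  rw [e, hp]
  simp only [NS.aa, NS.hc]
  linear_combination (norm := algebra) S.hh * k

end Vale.Agent.P280Z.Qs
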