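import Vale.Agent.P280Z.Qs.S41
import Vale.Agent.P280Z.R1.Defs
import Vale.Agent.P280Z.Hr.Tdx

/-!
# P280Z, block Qs: dimension six, fibres of genus one
-/

open PowerSeries

noncomputable section

namespace Vale.Agent.P280Z.Qs

open Al Al.Cn

variable {A B : Type} [CommRing A] [Algebra ℝ A] [CommRing B] [Algebra ℝ B] {S : NS A B}

theorem e61 (h : S.OK 6 1) (x : S.Xt 6 1) (hE : S.pE 1 = -S.hh) : False := by
  have h' := h.toOK0
  have L := lei S _ _ h'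
  have pk : ∀ k, S.es (S.pX k + (-S.η) ^ k) = S.τ ^ k + S.pK k := fun k => by
    rw [← h.ses, pEk h', hE, map_add, map_pow, map_neg, add_comm, NS.hh]
  have k1 : S.pK 1 = (1 : ℝ) • S.aa := by
    have := pk 1
    rw [h.c1, map_add, map_smul, map_pow, map_neg] at this
    simp only [NS.aa, NS.hc, NS.hh]
    push_cast at this
    linear_combination (norm := algebra) -this
  have o := x.oneK 1 one_pos k1
  rw [Hr.coeff_td _ _ (by norm_num), show 6 + 1 - 1 = 6 from rfl] at o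
  obtain ⟨p, hp⟩ : ∃ p : ℕ → A, ∀ k, p k = S.pX k + (-S.η) ^ k := ⟨_, fun _ => rfl⟩
  have dp : ∀ k, S.GX.Dg k (p k) := fun k => by
    rw [hp, GA.Dg, map_add, h.dX k, Elr.dg_pow h.gx (by rw [GA.Dg, map_neg, h.dη]) k]
  simp only [← hp] at pk
  have m := h.gx.dg_mul
  have z : ∀ a, S.GX.Dg 7 a → S.es a = 0 := fun a d => by
    rw [dg_hi h.gx d (by norm_num), map_zero]
  have d2 := m 1 1 _ _ (dp 1) (dp 1)
  have d3 := m 1 2 _ _ (dp 1) d2
  have z1 := z _ (m 1 6 _ _ (dp 1) (m 3 3 _ _ d3 d3))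
  have z2 := z _ (m 2 5 _ _ d2 (m 3 2 _ _ d3 (dp 2)))
  have z3 := z _ (m 3 4 _ _ d3 (m 2 2 _ _ (dp 2) (dp 2)))
  have z4 := z _ (m 3 4 _ _ d3 (dp 4))
  have z5 := z _ (m 1 6 _ _ (dp 1) (m 2 4 _ _ (dp 2) (m 2 2 _ _ (dp 2) (dp 2))))
  have z6 := z _ (m 1 6 _ _ (dp 1) (m 2 4 _ _ (dp 2) (dp 4)))
  have z7 := z _ (m 1 6 _ _ (dp 1) (dp 6))
  simp only [map_mul, pk] at z1 z2 z3 z4 z5 z6 z7
  let K : Subalgebra ℝ B :=
    { carrier := {y | S.T y = 0}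
      mul_mem' := fun {a b} ha hb => by
        show S.T _ = 0
        rw [L.ker _ _ ha, show S.T b = 0 from hb, mul_zero]
      add_mem' := fun {a b} ha hb => by
        show S.T _ = 0
        rw [map_add, show S.T a = 0 from ha, show S.T b = 0 from hb, add_zero]
      algebraMap_mem' := fun c => by
        show S.T _ = 0
        rw [Algebra.algebraMap_eq_smul_one, map_smul, L.one, smul_zero] }
  obtain ⟨w, hw⟩ : ∃ w, w = S.τ * S.τ := ⟨_, rfl⟩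
  have tw : w ∈ K := hw ▸ LeiH.tt h'
  have t1 : S.pK 1 ∈ K := h.TK 1
  have t2 : S.pK 2 ∈ K := h.TK 2
  have t4 : S.pK 4 ∈ K := h.TK 4
  have t6 : S.pK 6 ∈ K := h.TK 6
  generalize S.pK 1 = a at *
  generalize S.pK 2 = b at *
  generalize S.pK 4 = c at *
  generalize S.pK 6 = d at *
  obtain ⟨G, hG⟩ : ∃ G, G = Hr.tdx (0 + (1 / 2 : ℝ) • a) (-(1 / 24 : ℝ) • b)
    ((1 / 2880 : ℝ) • c) (-(1 / 181440 : ℝ) • d) ((1 / 9676800 : ℝ) • S.pK 8) 6 := ⟨_, rfl⟩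
  rw [← hG] at o
  have tG : G ∈ K := by
    rw [hG, Hr.tdx, zero_add]
    repeat' first | assumption | apply add_mem | apply mul_mem | apply pow_mem |
      apply Subalgebra.smul_mem
  obtain ⟨E, hE'⟩ : ∃ E, E = (1 / 60480 : ℝ) • (w ^ 3 * a) + (-1 / 34560 : ℝ) • (w ^ 2 * a ^ 3) +
    (1 / 34560 : ℝ) • (w ^ 2 * a * b) + (1 / 46080 : ℝ) • (w * a ^ 5) +
    (-1 / 13824 : ℝ) • (w * a ^ 3 * b) + (1 / 27648 : ℝ) • (w * a * b ^ 2) +
    (1 / 69120 : ℝ) • (w * a * c) + (1 / 645120 : ℝ) • a ^ 7 + (-1 / 92160 : ℝ) • (a ^ 5 * b) +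
    (1 / 55296 : ℝ) • (a ^ 3 * b ^ 2) + (1 / 138240 : ℝ) • (a ^ 3 * c) +
    (-1 / 165888 : ℝ) • (a * b ^ 3) + (-1 / 138240 : ℝ) • (a * b * c) +
    (-1 / 362880 : ℝ) • (a * d) := ⟨_, rfl⟩
  have tE : E ∈ K := by
    rw [hE']
    repeat' first | assumption | apply add_mem | apply mul_mem | apply pow_mem |
      apply Subalgebra.smul_mem
  have e : (1 / 2 : ℝ) • (G * S.τ) + E = 0 := by
    rw [hG, hE', hw, Hr.tdx]
    linear_combination (norm := algebra) (1 / 645120 : ℝ) • z1 + (-1 / 92160 : ℝ) • z2 +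
      (1 / 55296 : ℝ) • z3 + (1 / 138240 : ℝ) • z4 + (-1 / 165888 : ℝ) • z5 +
      (-1 / 138240 : ℝ) • z6 + (-1 / 362880 : ℝ) • z7
  have e2 := congrArg S.T e
  rw [map_add, map_smul, L.ker _ _ tG, h.Tτ, show S.T E = 0 from tE, map_zero] at e2
  rw [show G = 0 by linear_combination (norm := algebra) e2, mul_zero, map_zero] at o
  exact zero_ne_one o

end Vale.Agent.P280Z.Qs
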