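import Vale.Agent.P280Z.Qs.Gen

/-!
# P280Z, block Qs: the equations in dimension four
-/

noncomputable section

namespace Vale.Agent.P280Z.Qs

open Al

theorem cert4 {q x2 x3 x4 : ℝ}
    (e0 : -(3/16)*q*x2 + (5/16)*x2^3 - (3/4)*x2*x3 - (3/2)*x2 + (1/4)*x4 = 0)
    (e1 : (1/16)*q^2 - (3/16)*q*x2^2 + (1/4)*q*x3 - (1/2)*q = 0)
    (e2 : (1/8)*x2^3 - (1/4)*x2*x3 - x2 = 0)
    (e3 : -(1/24)*q*x3 + (1/24)*q + (1/8)*x2^2*x3 + (1/8)*x2^2 - (1/8)*x2*x4 - (1/9)*x3^2 -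
    (1/9)*x3 - (16/9) = 0)
    (e4 : -(1/12)*q*x2*x3 + (1/12)*q*x2 + (1/8)*q*x4 = 0)
    (e5 : (3/64)*q*x2 - (1/32)*q*x4 + (3/64)*x2^3 + (1/32)*x2^2*x4 - (5/48)*x2*x3 + (1/8)*x2 -
    (1/24)*x3*x4 - (5/48)*x4 = 0)
    : (x2 = 2 ∧ q = 0 ∧ x3 = -2 ∧ x4 = -10) ∨ (x2 = -2 ∧ q = 0 ∧ x4 = 10) ∨
      (x2 = 0 ∧ x4 = 0 ∧ (q = 16 ∨ q = -44)) := by
  have c1 : q * x2 = 0 := by
    linear_combination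
      (-(1/96)*q^2 + (1/24)*q*x3 + (1/8)*q) * e0 + (-(1/32)*q*x2 - (5/12)*x2 + (1/24)*x4) * e1 +
      (-(1/48)*q^2 - (1/24)*q*x3 - (7/8)*q) * e2 + (-(1/16)*q*x2) * e3 + (-(1/6)*x3 - (1/12)) *
      e4
  have c2 : x2 * (x2 - 2) * (x2 + 2) = 0 := by
    linear_combination
      ((1/32)*q^2 - (1/8)*q*x3 - (47/40)*q + (4/5)*x2^2 - (4/15)*x3 - (2/3)) * e0 + ((3/32)*q*x2
      - (23/20)*x2 - (1/8)*x4) * e1 + ((1/16)*q^2 + (1/8)*q*x3 + (89/40)*q - 2*x2^2 + (4/15)*x3 +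
      (8/3)) * e2 + ((3/16)*q*x2 + (6/5)*x2) * e3 + ((1/2)*x3 + (29/20)) * e4 + (-(8/5)) * e5
  have c3 : x4 = -5 * x2 := by
    linear_combination
      (-(1/5)*q + (1/5)*x2^2 - (1/15)*x3 + (23/6)) * e0 + (-(3/5)*x2) * e1 + (-(1/10)*q -
      (1/2)*x2^2 + (1/15)*x3 - (34/3)) * e2 + ((3/10)*x2) * e3 + ((3/10)) * e4 + (-(2/5)) * e5
  have c4 : x2 * (x3 + 2) = 0 := by
    linear_combination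
      ((1/64)*q^2 - (1/16)*q*x3 - (47/80)*q + (2/5)*x2^2 - (2/15)*x3 - (1/3)) * e0 + ((3/64)*q*x2
      - (23/40)*x2 - (1/16)*x4) * e1 + ((1/32)*q^2 + (1/16)*q*x3 + (89/80)*q - x2^2 + (2/15)*x3 -
      (8/3)) * e2 + ((3/32)*q*x2 + (3/5)*x2) * e3 + ((1/4)*x3 + (29/40)) * e4 + (-(4/5)) * e5
  rcases mul_eq_zero.1 c2 with c | c
  · rcases mul_eq_zero.1 c with rfl | c
    · refine Or.inr (Or.inr ⟨rfl, by linarith, ?_⟩)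
      have d1 : q * (q + 4 * x3 - 8) = 0 := by linear_combination 16 * e1
      rcases mul_eq_zero.1 d1 with rfl | d
      · nlinarith [sq_nonneg (2 * x3 + 1)]
      · obtain rfl : q = 8 - 4 * x3 := by linarith
        have d2 : (x3 + 2) * (x3 - 13) = 0 := by linear_combination 18 * e3
        rcases mul_eq_zero.1 d2 with d | d
        · exact Or.inl (by linarith)
        · exact Or.inr (by linarith)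
    · obtain rfl : x2 = 2 := by linarith
      exact Or.inl ⟨rfl, by linarith, by linarith, by linarith⟩
  · obtain rfl : x2 = -2 := by linarith
    exact Or.inr (Or.inl ⟨rfl, by linarith, by linarith⟩)

theorem alg4 {R : Type} [CommRing R] [Algebra ℝ R] {A e U f2 s : R} {t Q : ℕ → R}
    {q x2 x3 x4 : ℝ} (g4 : Hn A e 4 = 0) (g5 : e * Hn A e 3 = 0) (gs : e * s = 0)
    (ga : A * s * s + q • Hn A e 3 = 0)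
    (n1 : ∀ c : ℝ, c • (A * e ^ 2) = 0 → c = 0) (hU : U = (1 / 4 : ℝ) • (A ^ 2 - 4 * e))
    (h : Ch 2 t Q U) (t2 : t 2 = x2 • A + s) (t3 : t 3 = x3 • Hn A e 2)
    (t4 : t 4 = x4 • Hn A e 3) (t5 : t 5 = 0) (t6 : t 6 = 0)
    (h2 : f2 = (1 / 2 : ℝ) • (Q 1 ^ 2 - Q 2))
    (hk : ∀ k, Q (k + 3) = Q 1 * Q (k + 2) - f2 * Q (k + 1)) :
    ((x2 = 2 ∧ q = 0 ∧ x3 = -2 ∧ x4 = -10) ∨ (x2 = -2 ∧ q = 0 ∧ x4 = 10) ∨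
      (x2 = 0 ∧ x4 = 0 ∧ (q = 16 ∨ q = -44))) ∧
      ∀ (u : R) (p : ℝ), e * u = 0 → A * s * u + p • Hn A e 3 = 0 →
        p * (3 * x4 + 2 * x2 - 2 * x2 * x3) = 0 := by
  have k3 : Q 3 = Q 1 * Q 2 - f2 * Q 1 := hk 0
  have k4 : Q 4 = Q 1 * Q 3 - f2 * Q 2 := hk 1
  have k5 : Q 5 = Q 1 * Q 4 - f2 * Q 3 := hk 2
  simp only [h2, h.q5, h.q4, h.q3, h.q2, h.q1, t2, t3, t4, t5, t6, hU, Hn] at k3 k4 k5 g4 g5 ga ⊢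
  refine ⟨cert4 (n1 _ ?_) (n1 _ ?_) (n1 _ ?_) (n1 _ ?_) (n1 _ ?_) (n1 _ ?_),
    fun u p ht ha => n1 _ ?_⟩
  · linear_combination (norm := algebra) (A ^ 2 : R) * k3 -
      ((-(3/16)*q*x2 + (1/16)*x2^3 - (1/4)*x2*x3 + (1/2)*x2 + (1/4)*x4 : ℝ) • (A) + (-(1/16)*q +
      (3/16)*x2^2 - (1/4)*x3 + (1/2) : ℝ) • (s)) * g4 - ((-(3/16)*q*x2 + (3/16)*x2^3 -
      (1/2)*x2*x3 - (1/2)*x2 + (1/4)*x4 : ℝ) • (1 : R)) * g5 - ((-(1/16)*q + (9/16)*x2^2 -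
      (1/2)*x3 - (1/2) : ℝ) • (A ^ 2) + ((1/16)*q - (3/16)*x2^2 + (1/4)*x3 - (1/2) : ℝ) • (e)) *
      gs - (((3/16)*x2 : ℝ) • (A ^ 2) + ((1/16) : ℝ) • (A * s)) * ga
  · linear_combination (norm := algebra) (A * s : R) * k3 -
      (((1/16)*q^2 - (3/16)*q*x2^2 + (1/4)*q*x3 - (1/2)*q : ℝ) • (A) + (-(3/16)*q*x2 +
      (1/16)*x2^3 - (1/4)*x2*x3 + (1/2)*x2 + (1/4)*x4 : ℝ) • (s)) * g4 - (((1/16)*q^2 -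
      (3/16)*q*x2^2 + (1/4)*q*x3 - (1/2)*q : ℝ) • (1 : R)) * g5 - ((-(3/16)*q*x2 + (3/16)*x2^3 -
      (1/2)*x2*x3 - (1/2)*x2 + (1/4)*x4 : ℝ) • (A ^ 2) + ((1/8)*q + (1/4)*x3 - 2 : ℝ) • (A * s) +
      ((3/16)*q*x2 - (1/16)*x2^3 + (1/4)*x2*x3 - (1/2)*x2 - (1/4)*x4 : ℝ) • (e)) * gs -
      ((-(1/16)*q + (3/16)*x2^2 - (1/4)*x3 + (1/2) : ℝ) • (A ^ 2) + ((3/16)*x2 : ℝ) • (A * s) +
      ((1/16) : ℝ) • (s ^ 2)) * ga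
  · linear_combination (norm := algebra) (e : R) * k3 -
      (((1/16)*x2^3 - (1/4)*x2*x3 + (1/2)*x2 + (1/4)*x4 : ℝ) • (1 : R)) * g5 - (((3/16)*x2^2 -
      (1/4)*x3 + (1/2) : ℝ) • (A ^ 2) + ((3/16)*x2 : ℝ) • (A * s) + ((1/4)*x3 - 2 : ℝ) • (e) +
      ((1/16) : ℝ) • (s ^ 2)) * gs
  · linear_combination (norm := algebra) (A : R) * k4 -
      ((-(1/24)*q*x3 + (1/24)*q + (1/24)*x2^2*x3 - (1/24)*x2^2 - (1/8)*x2*x4 - (1/18)*x3^2 +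
      (1/9)*x3 - (16/45) : ℝ) • (A) + ((1/12)*x2*x3 - (1/12)*x2 - (1/8)*x4 : ℝ) • (s)) * g4 -
      ((-(1/24)*q*x3 + (1/24)*q + (1/12)*x2^2*x3 + (1/24)*x2^2 - (1/8)*x2*x4 - (1/18)*x3^2 -
      (2/9)*x3 + (16/9) : ℝ) • (1 : R)) * g5 - (((1/6)*x2*x3 + (1/12)*x2 - (1/8)*x4 : ℝ) • (A ^
      2) + (-(1/24)*x3 + (1/6) : ℝ) • (A * s) + (-(1/12)*x2*x3 + (1/12)*x2 + (1/8)*x4 : ℝ) • (e))
      * gs - (((1/24)*x3 - (1/24) : ℝ) • (A ^ 2)) * ga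
  · linear_combination (norm := algebra) (s : R) * k4 -
      ((-(1/12)*q*x2*x3 + (1/12)*q*x2 + (1/8)*q*x4 : ℝ) • (A) + (-(1/24)*q*x3 + (1/24)*q +
      (1/24)*x2^2*x3 - (1/24)*x2^2 - (1/8)*x2*x4 - (1/18)*x3^2 + (1/9)*x3 - (16/45) : ℝ) • (s)) *
      g4 - ((-(1/12)*q*x2*x3 + (1/12)*q*x2 + (1/8)*q*x4 : ℝ) • (1 : R)) * g5 - ((-(1/24)*q*x3 +
      (1/24)*q + (1/12)*x2^2*x3 + (1/24)*x2^2 - (1/8)*x2*x4 - (1/18)*x3^2 - (2/9)*x3 + (16/9) :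
      ℝ) • (A ^ 2) + (-(1/12)*x2*x3 + (1/3)*x2 + (1/4)*x4 : ℝ) • (A * s) + ((1/24)*q*x3 -
      (1/24)*q - (1/24)*x2^2*x3 + (1/24)*x2^2 + (1/8)*x2*x4 + (1/3)*x3 - (16/3) : ℝ) • (e) +
      (-(1/24)*x3 + (1/6) : ℝ) • (s ^ 2)) * gs - (((1/12)*x2*x3 - (1/12)*x2 - (1/8)*x4 : ℝ) • (A
      ^ 2) + ((1/24)*x3 - (1/24) : ℝ) • (A * s)) * ga
  · linear_combination (norm := algebra) (1 : R) * k5 -
      (((3/64)*q*x2 - (1/32)*q*x4 - (1/64)*x2^3 + (1/32)*x2^2*x4 + (5/48)*x2*x3 + (1/40)*x2 -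
      (1/24)*x3*x4 - (5/48)*x4 : ℝ) • (A) + ((1/64)*q - (3/64)*x2^2 + (1/16)*x2*x4 + (5/48)*x3 +
      (1/40) : ℝ) • (s)) * g4 - (((3/64)*q*x2 - (1/32)*q*x4 + (1/64)*x2^3 + (1/32)*x2^2*x4 -
      (5/24)*x2*x3 - (1/8)*x2 + (5/16)*x4 : ℝ) • (1 : R)) * g5 - (((1/64)*q + (3/64)*x2^2 +
      (1/16)*x2*x4 - (5/24)*x3 - (1/8) : ℝ) • (A ^ 2) + ((3/16)*x2 - (1/16)*x4 : ℝ) • (A * s) +
      (-(1/64)*q + (3/64)*x2^2 - (1/16)*x2*x4 + (5/16)*x3 + (3/8) : ℝ) • (e) + ((1/16) : ℝ) • (s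
      ^ 2)) * gs - ((-(3/64)*x2 + (1/32)*x4 : ℝ) • (A ^ 2) + (-(1/64) : ℝ) • (A * s)) * ga
  · linear_combination (norm := algebra) (u * 24 : R) * k4 -
      ((-2*p*x2*x3 + 2*p*x2 + 3*p*x4 : ℝ) • (A) + (-q*x3 + q + x2^2*x3 - x2^2 - 3*x2*x4 -
      (4/3)*x3^2 + (8/3)*x3 - (128/15) : ℝ) • (u)) * g4 - ((-2*p*x2*x3 + 2*p*x2 + 3*p*x4 : ℝ) •
      (1 : R)) * g5 - ((-2*x2*x3 + 8*x2 + 6*x4 : ℝ) • (A * u) + (-x3 + 4 : ℝ) • (s * u)) * gs -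
      ((x3 - 1 : ℝ) • (A * u)) * ga - ((-q*x3 + q + 2*x2^2*x3 + x2^2 - 3*x2*x4 - (4/3)*x3^2 -
      (16/3)*x3 + (128/3) : ℝ) • (A ^ 2) + (q*x3 - q - x2^2*x3 + x2^2 + 3*x2*x4 + 8*x3 - 128 : ℝ)
      • (e)) * ht - ((2*x2*x3 - 2*x2 - 3*x4 : ℝ) • (A ^ 2)) * ha

end Vale.Agent.P280Z.Qs
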