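import Vale.Agent.P280Z.Qs.R1g

/-!
# P280Z, block Qs: the equations in dimension four, for fibres of dimension one
-/

noncomputable section

namespace Vale.Agent.P280Z.Qs

open Al

theorem cert41 {g x3 x4 q c d z : ℝ}
    (e1 : 6*g^2*c + 3*g^2 + 3*g*d - x3*c - x3 - (3/4)*q - (9/2)*c + (9/4) = 0)
    (e2 : 3*g^2*d - 3*g*q - x3*d - (3/4)*q*d + (9/4)*d = 0)
    (e3 : -3*g^2*q - 3*g*q*d + x3*q - (9/4)*q + (3/4)*z = 0)
    (e4 : 3*g^2*c - x3 - (27/4)*c + 9 = 0)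
    (e5 : 8*g^3*c + 4*g^3 + 6*g^2*d - 3*g*q - 2*g*c + g - x4 - (1/2)*q*d + (1/2)*d = 0)
    (e6 : 4*g^3*d - 6*g^2*q - 3*g*q*d + g*d - x4*d - (1/2)*q + (1/2)*z = 0)
    (e7 : 10*g^4*c + 5*g^4 + 10*g^3*d - (15/2)*g^2*q - 5*g^2*c + (5/2)*g^2 - (5/2)*g*q*d +
    (5/2)*g*d - (5/8)*q + (165/8)*c + (5/16)*z - (495/16) = 0)
    : 0 ≤ -q + (c - 1) * d ^ 2 := by
  by_cases hx : x3 + 6 * c - 9 = 0
  swap
  · have c1 : q * (x3 + 6 * c - 9) = 0 := by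
      linear_combination
        (-(1/18)*g^2*x3*q + (1/12)*g^2*x4*d + (1/24)*g^2*q^2 + (1/12)*g^2*q - (1/24)*g^2*c*z -
        (1/24)*g^2*z - (1/27)*g*x3^2*d + (1/72)*g*x3*q*d + (1/12)*g*x3*d + (1/24)*g*x4*q +
        (1/24)*g*x4*d^2 + (1/32)*g*q^2*d + (3/8)*g*q*c*d - (7/16)*g*q*d - (1/32)*g*d*z -
        (1/24)*g*d - (1/27)*x3^2*q - (1/54)*x3^2*d^2 + (7/144)*x3*q^2 - (1/8)*x3*q*c +
        (1/36)*x3*q*d^2 + (1/12)*x3*q + (5/72)*x3*d^2 - (1/72)*x3*z + (1/96)*x4*q*d + (1/24)*x4*d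
        + (1/32)*q^2*d^2 - (5/48)*q^2 - (3/8)*q*c - (7/96)*q*d^2 + (1/32)*q*z + (25/48)*q -
        (1/16)*d^2 + (1/48)*z) * e1 + (-(1/12)*g^2*x4 + (1/4)*g^2*d + (1/27)*g*x3^2*c +
        (2/27)*g*x3^2 + (1/72)*g*x3*q*c - (13/72)*g*x3*q + (13/36)*g*x3*c - (1/18)*g*x3*d^2 -
        (5/12)*g*x3 - (1/24)*g*x4*c*d - (17/24)*g*q*c - (1/24)*g*q*d^2 + (17/24)*g*q +
        (1/32)*g*c*z + (1/12)*g*c + (1/8)*g*d^2 - (1/24)*g*z + (1/24)*g + (1/54)*x3^2*c*d -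
        (1/24)*x3*q*c*d - (5/72)*x3*c*d + (5/36)*x3*d - (1/24)*x4*d^2 - (1/24)*x4 - (1/32)*q^2*d
        - (5/24)*q*d + (1/16)*c*d + (1/32)*d*z - (5/24)*d) * e2 + (-(1/24)*g*x3*d + (1/24)*g*x4*c
        + (1/16)*g*q*c*d - (5/16)*g*c*d + (3/16)*g*d - (1/27)*x3^2*c + (1/54)*x3^2 +
        (7/144)*x3*q*c - (1/8)*x3*c^2 + (5/24)*x3*c + (1/72)*x3*d^2 - (1/4)*x3 + (1/96)*x4*c*d +
        (5/96)*x4*d + (7/192)*q^2 - (1/96)*q*c + (1/96)*q*d^2 + (3/16)*q - (3/8)*c^2 -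
        (1/192)*c*z + (3/16)*c - (1/32)*d^2 - (5/192)*z + (3/4)) * e3 + (-(1/27)*g*x3^2*d +
        (1/72)*g*x3*q*d + (1/18)*g*x3*d - (1/24)*g*x4*q - (1/24)*g*x4*d^2 - (1/48)*g*q*d +
        (1/18)*x3^2*q + (1/54)*x3^2*d^2 + (1/36)*x3*x4*d - (1/48)*x3*q^2 + (1/8)*x3*q*c -
        (1/72)*x3*q*d^2 + (5/72)*x3*q - (1/72)*x3*c*z - (5/72)*x3*d^2 - (1/96)*x4*q*d +
        (3/32)*q^2 + (3/8)*q*c + (1/48)*q*d^2 - (29/48)*q - (1/24)*c*z + (1/16)*d^2 - (1/16)*z) *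
        e4 + (-(1/16)*g*x4*d - (1/32)*g*q^2 - (3/16)*g*q + (1/32)*g*c*z + (1/32)*g*z +
        (1/36)*x3^2*d - (1/48)*x3*q*d - (5/48)*x3*d - (9/32)*q*c*d + (11/32)*q*d + (3/32)*d) * e5
        + ((1/16)*g*x4 - (3/16)*g*d - (1/18)*x3^2 + (7/96)*x3*q - (11/48)*x3*c + (1/24)*x3*d^2 +
        (17/48)*x3 - (1/128)*q^2 + (9/32)*q*c + (1/32)*q*d^2 - (17/32)*q + (1/128)*c*z - (3/16)*c
        - (3/32)*d^2 + (5/128)*z - (3/32)) * e6 + ((1/30)*x3*q + (1/10)*q) * e7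
    have c2 : d * (x3 + 6 * c - 9) = 0 := by
      linear_combination
        (-(1/18)*g^2*x3*d + (1/2)*g^2*d + (1/18)*g*x3*q*c - (19/36)*g*x3*q - (1/6)*g*x3*d^2 +
        (1/12)*g*x4*d - (1/32)*g*q^2 - (17/12)*g*q*c - (13/96)*g*q*d^2 + (71/24)*g*q +
        (1/12)*g*c*z + (1/3)*g*d^2 - (5/48)*g*z - (1/54)*x3^2*c*d - (1/18)*x3^2*d -
        (1/72)*x3*q*c*d - (13/72)*x3*q*d + (5/36)*x3*c*d - (11/72)*x3*d + (1/48)*x4*q -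
        (5/384)*q^2*d - (37/48)*q*c*d + (21/16)*q*d - (11/4)*c*d + (5/384)*d*z + 3*d) * e1 +
        (-(1/9)*g^2*x3 + (1/3)*g^2 + (1/9)*g*x3*c*d - (1/12)*g*x4*c - (1/12)*g*x4 +
        (5/48)*g*q*c*d + (11/12)*g*c*d + (1/12)*g*d + (1/54)*x3^2*c^2 + (1/18)*x3^2*c -
        (1/288)*x3*q*c - (7/72)*x3*q - (5/36)*x3*c^2 + (5/18)*x3*c + (1/2)*x3 - (1/12)*x4*d +
        (3/128)*q^2 - (37/96)*q*c - (1/24)*q*d^2 + (17/24)*q + (11/4)*c^2 - (7/192)*c*z -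
        (17/8)*c + (1/24)*d^2 - (25/384)*z - (83/24)) * e2 + ((1/9)*g*x3*c^2 - (11/36)*g*x3*c -
        (1/3)*g*x3 - (5/96)*g*q - (4/3)*g*c^2 + (7/8)*g*c - (5/96)*g*d^2 + (13/8)*g -
        (1/32)*x3*c*d - (2/9)*x3*d + (1/48)*x4*c + (5/48)*x4 - (5/192)*q*c*d - (73/96)*c*d +
        (21/16)*d) * e3 + ((7/36)*g*x3*q - (1/12)*g*x4*d + (5/48)*g*q^2 - (11/8)*g*q -
        (5/24)*g*c*z - (13/12)*g*d^2 - (5/48)*g*z + (1/54)*x3^2*c*d + (1/18)*x3^2*d +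
        (5/36)*x3*q*c*d + (7/72)*x3*q*d - (5/36)*x3*c*d + (1/36)*x3*d - (5/48)*x4*q +
        (5/48)*q^2*d + (5/24)*q*c*d - (7/48)*q*d + (11/4)*c*d - (5/48)*d*z - (13/24)*d) * e4 +
        (-(1/2)*g*d + (3/16)*x3*q + (1/12)*x3*d^2 - (1/64)*q^2 + (9/16)*q*c + (1/16)*q*d^2 -
        (9/8)*q + (1/64)*c*z - (3/16)*d^2 + (5/64)*z) * e5 + ((1/12)*g*x3 - (1/4)*g) * e6 +
        ((1/30)*x3*d + (1/10)*d) * e7
    rw [(mul_eq_zero.1 c1).resolve_right hx, (mul_eq_zero.1 c2).resolve_right hx]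
    norm_num
  obtain rfl : x3 = 9 - 6 * c := by linarith
  by_cases h0 : c = 0
  · subst h0
    have c1 : q + d * d = 0 := by
      linear_combination
        (-(4/15)*g*d) * e1 + ((4/15)*g - (2/15)*d) * e2 + ((2/15)) * e3 + ((1/5)*d) * e5 +
        (-(1/5)) * e6
    linarith
  by_cases h1 : c = 3 / 2
  · subst h1
    have c1 : 2 * d * d - q - 6 = 0 := by
      linear_combination
        ((8/3)*g*d + 4) * e1 + (-(8/3)*g) * e2 + (-(16/3)*g*d - (16/9)*q - (16/9)*d^2 - (32/3)) *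
        e4
    have c2 : (q - 2) * (q + 4) = 0 := by
      linear_combination
        (-(4/3)*q + (16/3)) * e1 + (-(16/3)*g) * e2 + ((32/9)*g*d - (128/9)) * e4
    rcases mul_eq_zero.1 c2 with k | k <;> linarith
  have hc : c * (2 * c - 3) ≠ 0 := mul_ne_zero h0 fun k => h1 (by linarith)
  have c1 : c * (2 * c - 3) * q = 0 := by
    linear_combination
      ((1/6)*g^2*q - (2/3)*g*c*d + (5/6)*g*d - (1/12)*x4*d + (1/3)*q*c - (11/24)*q) * e1 +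
      ((1/3)*g^2*d + (2/3)*g*c^2 - (2/3)*g*c - (5/6)*g + (1/12)*x4) * e2 + ((1/6)*g*d - (1/24)*q
      + (1/3)*c^2 - (2/3)*c) * e3 + ((4/3)*g*c*d - (5/3)*g*d + (1/6)*x4*d - q*c + (5/3)*q) * e4 +
      (-(1/4)*g*q) * e5 + (-(1/4)*g*d - (1/2)*c^2 + c) * e6 + ((1/10)*q) * e7
  have c2 : c * (2 * c - 3) * d = 0 := by
    linear_combination
      ((1/6)*g^2*d - (1/24)*d) * e1 + (-(1/3)*g^2 + (1/3)*c - (5/12)) * e2 + (-(1/6)*g -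
      (1/24)*d) * e3 + (-(1/3)*c*d + (5/6)*d) * e4 + (-(1/4)*g*d) * e5 + ((1/4)*g) * e6 +
      ((1/10)*d) * e7
  rw [(mul_eq_zero.1 c1).resolve_left hc, (mul_eq_zero.1 c2).resolve_left hc]
  norm_num

variable {R : Type} [CommRing R] [Algebra ℝ R] {A e s Q U : R} {g x3 x4 q : ℝ}

theorem alg41 (φ : R →ₗ[ℝ] ℝ) (g4 : Hn A e 4 = 0) (gs : e * s = 0)
    (ga : A * s * s + q • Hn A e 3 = 0) (hV : φ (A * Hn A e 3) = 1)
    (hU : U = (1 / 4 : ℝ) • (A ^ 2 - 4 * e)) (hQ : Q = g • A + (1 / 2 : ℝ) • s)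
    (E3 : 3 * Q ^ 2 + 9 * U = x3 • Hn A e 2) (E4 : 4 * Q ^ 3 + 4 * Q * U = x4 • Hn A e 3)
    (E5 : 5 * Q ^ 4 + 10 * Q ^ 2 * U + 33 * U ^ 2 = 0) :
    ∃ d : ℝ, φ ((s - d • A) * Hn A e 3) = 0 ∧ 0 ≤ φ ((s - d • A) * (s - d • A) * Hn A e 2) := by
  obtain ⟨c, hc⟩ : ∃ c, φ (A ^ 2 * e) = c := ⟨_, rfl⟩
  obtain ⟨d, hd⟩ : ∃ d, φ (A ^ 3 * s) = d := ⟨_, rfl⟩
  obtain ⟨z, hz⟩ : ∃ z, φ (s ^ 4) = z := ⟨_, rfl⟩
  have key : ∀ (x : R) (c1 c2 c3 c4 : ℝ), x = c1 • (A * Hn A e 3) + c2 • (A ^ 2 * e) +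
      c3 • (A ^ 3 * s) + c4 • s ^ 4 → φ x = c1 + c2 * c + c3 * d + c4 * z := fun x _ _ _ _ k => by
    simp only [k, map_add, map_smul, hV, hc, hd, hz, smul_eq_mul, mul_one]
  have ke : ∀ c1 c2 c3 c4 y : ℝ, 0 = c1 • (A * Hn A e 3) + c2 • (A ^ 2 * e) +
      c3 • (A ^ 3 * s) + c4 • s ^ 4 → y = c1 + c2 * c + c3 * d + c4 * z → y = 0 :=
    fun _ _ _ _ y k k' => by rw [k', ← key _ _ _ _ _ k, map_zero]
  subst hU hQ
  simp only [Hn] at *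
  refine ⟨d, ?_, ?_⟩
  · rw [key _ (-d) (0) (1) (0) (by linear_combination (norm := algebra) ((-2 : ℝ) • (A)) * gs)]
    ring
  rw [key _ (-q + d^2) (d^2) (-2*d) (0) (by linear_combination (norm := algebra) ((2*d : ℝ) •
    (A) + (-1 : ℝ) • (s)) * gs + ((1 : ℝ) • (A)) * ga)]
  refine (cert41 (g := g) (x3 := x3) (x4 := x4) (q := q) (c := c) (d := d) (z := z)
    ?_ ?_ ?_ ?_ ?_ ?_ ?_).trans_eq (by ring)
  · refine ke (3*g^2 - x3 - (3/4)*q + (9/4)) (6*g^2 - x3 - (9/2)) (3*g) (0) _ ?_ (by ring)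
    linear_combination (norm := algebra) (((3/4) : ℝ) • (A)) * ga - (A * A : R) * E3
  · refine ke (-3*g*q) (0) (3*g^2 - x3 - (3/4)*q + (9/4)) (0) _ ?_ (by ring)
    linear_combination (norm := algebra) ((x3 + (3/2)*q - 9 : ℝ) • (A)) * gs + ((3*g : ℝ) • (A)
      + ((3/4) : ℝ) • (s)) * ga - (A * s : R) * E3
  · refine ke (-3*g^2*q + x3*q - (9/4)*q) (0) (-3*g*q) ((3/4)) _ ?_ (by ring)
    linear_combination (norm := algebra) ((6*g*q : ℝ) • (A) + (x3 - 9 : ℝ) • (s)) * gs +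
      ((3*g^2 - x3 + (9/4) : ℝ) • (A) + (3*g : ℝ) • (s)) * ga - (s * s : R) * E3
  · refine ke (-x3 + 9) (3*g^2 - (27/4)) (0) (0) _ ?_ (by ring)
    linear_combination (norm := algebra) ((x3 - 9 : ℝ) • (1 : R)) * g4 + ((3*g : ℝ) • (A) +
      ((3/4) : ℝ) • (s)) * gs - (e : R) * E3
  · refine ke (4*g^3 - 3*g*q + g - x4) (8*g^3 - 2*g) (6*g^2 - (1/2)*q + (1/2)) (0) _ ?_ (by
      ring)
    linear_combination (norm := algebra) ((q - 2 : ℝ) • (A)) * gs + ((3*g : ℝ) • (A) + ((1/2) :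
      ℝ) • (s)) * ga - (A : R) * E4
  · refine ke (-6*g^2*q - (1/2)*q) (0) (4*g^3 - 3*g*q + g - x4) ((1/2)) _ ?_ (by ring)
    linear_combination (norm := algebra) ((6*g*q - 4*g + 2*x4 : ℝ) • (A) + (-2 : ℝ) • (s)) * gs
      + ((6*g^2 + (1/2) : ℝ) • (A) + (3*g : ℝ) • (s)) * ga - (s : R) * E4
  · refine ke (5*g^4 - (15/2)*g^2*q + (5/2)*g^2 - (5/8)*q - (495/16)) (10*g^4 - 5*g^2 +
      (165/8)) (10*g^3 - (5/2)*g*q + (5/2)*g) ((5/16)) _ ?_ (by ring)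
    linear_combination (norm := algebra) ((33 : ℝ) • (1 : R)) * g4 + ((5*g*q - 10*g : ℝ) • (A)
      + (-(5/2) : ℝ) • (s)) * gs + (((15/2)*g^2 + (5/8) : ℝ) • (A) + ((5/2)*g : ℝ) • (s)) * ga -
      (1 : R) * E5

theorem pl41 (φ : R →ₗ[ℝ] ℝ) (g4 : Hn A e 4 = 0) (hv : 0 < φ (A ^ 4))
    (hr : A * e = 0 → e ≠ 0 → 0 < φ (e * e))
    (hU : U = (1 / 4 : ℝ) • (A ^ 2 - 4 * e)) (hQ : Q = g • A)
    (E3 : 3 * Q ^ 2 + 9 * U = x3 • Hn A e 2) (E4 : 4 * Q ^ 3 + 4 * Q * U = x4 • Hn A e 3)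
    (E5 : 5 * Q ^ 4 + 10 * Q ^ 2 * U + 33 * U ^ 2 = 0) : False := by
  have n1 : ∀ c : ℝ, c • A ^ 4 = 0 → c = 0 := fun c k => by
    have := congrArg φ k
    rw [map_smul, map_zero, smul_eq_mul] at this
    exact (mul_eq_zero.1 this).resolve_right hv.ne'
  subst hU hQ
  simp only [Hn] at *
  by_cases h9 : x3 = 9
  · subst h9
    have k1 : 4 * g ^ 2 - 9 = 0 := n1 _ (by
      linear_combination (norm := algebra) ((4 / 3 : ℝ) • A ^ 2) * E3)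
    have k1' : (4 * g ^ 2 - 9) • (1 : R) = 0 := by rw [k1, zero_smul]
    have k2 : A ^ 2 * e = 0 := by
      linear_combination (norm := algebra) (1 / 60 : ℝ) • E5 - (33 / 60 : ℝ) • g4 -
        (((1 / 48 * g ^ 2 + 11 / 192 : ℝ)) • A ^ 4 - (1 / 24 : ℝ) • (A ^ 2 * e)) * k1'
    have k3 : 10 * g - x4 = 0 := n1 _ (by
      linear_combination (norm := algebra) A * E4 - (g • A ^ 4) * k1' - (2 * x4 - 4 * g) • k2)
    obtain rfl : x4 = 10 * g := by linarith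
    have k4 : A * e = 0 := by
      linear_combination (norm := algebra) (g / 36) • E4 - ((g ^ 2 / 36) • A ^ 3 +
        (1 / 9 : ℝ) • (A * e)) * k1'
    have k5 : e * e = -A ^ 4 := by linear_combination g4 + 3 * k2
    have := hr k4 fun k => by
      rw [k, mul_zero, zero_eq_neg] at k5
      rw [k5, map_zero] at hv
      exact hv.false
    rw [k5, map_neg] at this
    linarith
  obtain ⟨l, hl⟩ : ∃ l : ℝ, l * (9 - x3) = 3 * g ^ 2 + 9 / 4 - x3 :=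
    ⟨_, div_mul_cancel₀ _ fun k => h9 (by linarith)⟩
  obtain rfl : e = l • A ^ 2 := by
    refine smul_right_injective R (fun k => h9 (by linarith) : 9 - x3 ≠ 0) ?_
    show (9 - x3) • e = (9 - x3) • l • A ^ 2
    rw [smul_smul, mul_comm _ l, hl]
    linear_combination (norm := algebra) -E3
  have k1 : 1 - 3 * l + l ^ 2 = 0 := n1 _ (by linear_combination (norm := algebra) g4)
  have k2 : 5 * (g ^ 2 + (1 / 4 - l)) ^ 2 + 28 * (1 / 4 - l) ^ 2 = 0 := n1 _ (by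
    linear_combination (norm := algebra) E5)
  have k3 : 1 / 4 - l = 0 := pow_eq_zero_iff (two_ne_zero) |>.1 (by
    nlinarith [sq_nonneg (g ^ 2 + (1 / 4 - l)), sq_nonneg (1 / 4 - l)])
  obtain rfl : l = 1 / 4 := by linarith
  norm_num at k1

end Vale.Agent.P280Z.Qs
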