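import Vale.Agent.P280Z.Qs.Gen

/-!
# P280Z, block Qs: the equations in dimension five
-/

noncomputable section

namespace Vale.Agent.P280Z.Qs

open Al

theorem cert5 {X2 X3 X4 X5 : ℝ}
    (e0 : -(7/3)*X2^4 + 9*X2^2*X3 + (7/2)*X2^2 - (16/3)*X2*X4 - 3*X3^2 - (5/4)*X3 + X5 - (115/48)
    = 0)
    (e1 : -(5/6)*X2^4 + 3*X2^2*X3 + (7/4)*X2^2 - (4/3)*X2*X4 - X3^2 - (5/12)*X3 - (575/288) = 0)
    (e2 : -(3/2)*X2^3*X3 - (1/6)*X2^3 + 2*X2^2*X4 + 3*X2*X3^2 + (5/8)*X2*X3 - X2*X5 + (17/8)*X2 -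
    (5/2)*X3*X4 = 0)
    (e3 : -(1/2)*X2^3*X3 - (1/12)*X2^3 + (1/2)*X2^2*X4 + X2*X3^2 + (5/24)*X2*X3 + (85/48)*X2 -
    (5/6)*X3*X4 - (5/72)*X4 = 0)
    (e4 : -(1/4)*X2^4 - (2/3)*X2^3*X4 + (9/8)*X2^2*X3 + (1/2)*X2^2*X5 - (1/4)*X2^2 +
    (3/2)*X2*X3*X4 - (1/2)*X3^2 - (1/2)*X3*X5 + (19/96)*X3 - (2/3)*X4^2 - (19/24)*X5 + (1105/576)
    = 0)
    (e5 : -(1/4)*X2^3*X3 - (1/6)*X2^3*X5 + (5/12)*X2^3 + (1/2)*X2*X3^2 + (1/2)*X2*X3*X5 -
    (5/16)*X2*X3 + (7/8)*X2*X5 - (89/144)*X2 - (7/12)*X3*X4 - (1/3)*X4*X5 - (91/36)*X4 = 0)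
    : X3 = -1 / 3 ∧ X5 = -5 ∧ X4 = 2 * X2 ^ 3 - 6 * X2 ∧
      (2 * X2 - 3) * (2 * X2 + 3) * (2 * X2 - 1) * (2 * X2 + 1) = 0 := by
  refine ⟨?_, ?_, ?_, ?_⟩
  · linear_combination
      ((485882471/459963000)*X2^2*X3 + (53462093/137988900)*X2^2*X5 +
      (30078417701/7359408000)*X2^2 - (80555267/183985200)*X2*X3*X4 -
      (301326563/1379889000)*X2*X4 - (4360383437/2759778000)*X3^2 + (38153/13141800)*X3*X5 -
      (6659502949/13246934400)*X3 + (15208687/91992600)*X4^2 + (724907/157701600)*X5 -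
      (20209108559/6358528512)) * e0 + (-(3049484111/919926000)*X2^2*X3 -
      (53462093/49281750)*X2^2*X5 - (7421269633/689944500)*X2^2 + (46202281/36797040)*X2*X3*X4 +
      (1692296309/551955600)*X2*X4 + (1455241619/306642000)*X3^2 - (38153/13141800)*X3*X5 +
      (706016371/490627200)*X3 - (8361979/18398520)*X4^2 - (9131171519/5519556000)*X5 +
      (1397701981/367970400)) * e1 + ((2983093/39425400)*X2^3 - (3591601/7359408)*X2^2*X4 +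
      (107725399/275977800)*X2*X3^2 - (13123139377/3311733600)*X2*X3 +
      (107725399/275977800)*X2*X5 + (7292859761/4967600400)*X2 - (41057617/110391120)*X3*X4 +
      (3541484899/946209600)*X4) * e2 + ((1016261837/2759778000)*X2^3 +
      (130137823/91992600)*X2^2*X4 - (107725399/91992600)*X2*X3^2 +
      (12957304957/1103911200)*X2*X3 - (4566454/6388375)*X2*X5 - (27580326653/6623467200)*X2 +
      (197838541/183985200)*X3*X4 - (65025541843/5519556000)*X4) * e3 +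
      (-(906955351/367970400)*X2^2 - (19024853/45996300)*X2*X4 - (38153/3285450)*X3^2 +
      (5080787/39425400)*X3 + (38153/6570900)*X5 + (59653169/378483840)) * e4 +
      (-(540375721/183985200)*X2 + (44557777/91992600)*X4) * e5
  · linear_combination
      ((38231387/30664200)*X2^2*X3 + (1612547/3066420)*X2^2*X5 + (7328878591/1471881600)*X2^2 -
      (7569379/12265680)*X2*X3*X4 - (18614761/91992600)*X2*X4 - (118427663/61328400)*X3^2 +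
      (4147/292040)*X3*X5 - (227736391/294376320)*X3 + (4576517/18398520)*X4^2 +
      (78793/3504480)*X5 - (1916414137/706503168)) * e0 + (-(239687167/61328400)*X2^2*X3 -
      (1612547/1095150)*X2^2*X5 - (403712549/30664200)*X2^2 + (21830941/12265680)*X2*X3*X4 +
      (124006853/36797040)*X2*X4 + (119008243/20442800)*X3^2 - (4147/292040)*X3*X5 +
      (230676041/98125440)*X3 - (2648533/3679704)*X4^2 - (78767127/40885600)*X5 +
      (67255441/73594080)) * e1 + ((199811/2628360)*X2^3 - (5049895/7359408)*X2^2*X4 +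
      (3312181/6132840)*X2*X3^2 - (357176923/73594080)*X2*X3 + (3312181/6132840)*X2*X5 +
      (81271147/55195560)*X2 - (1230907/2453136)*X3*X4 + (98660521/21026880)*X4) * e2 +
      ((28665563/61328400)*X2^3 + (12094171/6132840)*X2^2*X4 - (3312181/2044280)*X2*X3^2 +
      (117511621/8177120)*X2*X3 - (1318269/1277675)*X2*X5 - (553795219/147188160)*X2 +
      (18631453/12265680)*X3*X4 - (5377484471/367970400)*X4) * e3 + (-(68546327/24531360)*X2^2 -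
      (1687801/3066420)*X2*X4 - (4147/73010)*X3^2 - (92927/876120)*X3 + (4147/146020)*X5 +
      (1428331/8410752)) * e4 + (-(49125137/12265680)*X2 + (4228169/6132840)*X4) * e5
  · linear_combination
      ((229893187/245037312)*X2^3 - (8543950327/3389682816)*X2^2*X4 -
      (311314739/376631424)*X2*X3^2 + (4763155/11769732)*X2*X3*X5 - (4515048089/2259788544)*X2*X3
      + (737119/5230992)*X2*X4^2 + (16349809517/3389682816)*X2*X5 + (271254612677/27117462528)*X2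
      - (55855913/94157856)*X3^2*X4 + (1732745627/1129894272)*X3*X4 -
      (36844402223/40676193792)*X4) * e0 + (-(1609252309/612593280)*X2^3 +
      (12280071209/1694841408)*X2^2*X4 + (2189043527/941578560)*X2*X3^2 -
      (1576027883/941578560)*X2*X3*X5 + (564852935/125543808)*X2*X3 +
      (12550531/117697320)*X2*X4^2 - (116096919761/8474207040)*X2*X5 -
      (2134629500563/67793656320)*X2 + (55855913/31385952)*X3^2*X4 - (2409586721/564947136)*X3*X4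
      - (9961/226341)*X4*X5 + (38130627889/20338096896)*X4) * e1 + (-(34684931/188315712)*X2^2*X3
      + (39316951/188315712)*X2^2*X5 - (5206458937/1694841408)*X2^2 -
      (101486251/282473568)*X2*X3*X4 - (181907743/31385952)*X2*X4 + (1215239/31385952)*X3^3 +
      (2750190107/3389682816)*X3^2 + (1366427/6974656)*X3*X5 - (17280207743/10169048448)*X3 -
      (206059/2615496)*X4^2 + (30458552827/6779365632)*X5 + (34147659053/2346703488)) * e2 +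
      ((12935717/47078928)*X2^2*X5 + (8666302079/706183920)*X2^2 - (12874655/23539464)*X2*X3*X4 +
      (18658961/1307748)*X2*X4 - (1215239/10461984)*X3^3 - (5801306189/2824735680)*X3^2 -
      (148647691/313859520)*X3*X5 + (5639186971/1694841408)*X3 + (18644027/14712165)*X4^2 -
      (29019557267/2824735680)*X5 - (79588860401/1955586240)) * e3 +
      (-(14747257/23539464)*X2^2*X4 + (100774675/94157856)*X2*X3^2 - (49401773/564947136)*X2*X3 +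
      (39316951/94157856)*X2*X5 + (7287335837/1694841408)*X2 - (121334251/94157856)*X3*X4 -
      (18644027/141236784)*X4) * e4
  · linear_combination
      ((581202208/19165125)*X2^2*X3 + (136534528/11499075)*X2^2*X5 + (6594013984/57495375)*X2^2 -
      (16849536/1277675)*X2*X3*X4 - (36452608/19165125)*X2*X4 - (2814057088/57495375)*X3^2 -
      (96256/547575)*X3*X5 - (689200672/34497225)*X3 + (53788928/11499075)*X4^2 -
      (457216/1642725)*X5 - (394296764/4139667)) * e0 + (-(603521888/6388375)*X2^2*X3 -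
      (273069056/8213625)*X2^2*X5 - (17289689168/57495375)*X2^2 + (9646208/255535)*X2*X3*X4 +
      (881375456/11499075)*X2*X4 + (935773056/6388375)*X3^2 + (96256/547575)*X3*X5 +
      (231277664/3833025)*X3 - (27853696/2299815)*X4^2 - (2772787328/57495375)*X5 +
      (1276848616/11499075)) * e1 + ((244096/182525)*X2^3 - (6707200/459963)*X2^2*X4 +
      (134513152/11499075)*X2*X3^2 - (4152224224/34497225)*X2*X3 + (134513152/11499075)*X2*X5 +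
      (4391391664/103491675)*X2 - (26119808/2299815)*X3*X4 + (572270144/4928175)*X4) * e2 +
      ((685326688/57495375)*X2^3 + (162418304/3833025)*X2^2*X4 - (134513152/3833025)*X2*X3^2 +
      (4115080864/11499075)*X2*X3 - (129796608/6388375)*X2*X5 - (4432053448/34497225)*X2 +
      (119603584/3833025)*X3*X4 - (6938835872/19165125)*X4) * e3 + (-(279435712/3833025)*X2^2 -
      (50591488/3833025)*X2*X4 + (385024/547575)*X3^2 - (385024/1642725)*X3 - (192512/547575)*X5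
      + (1281152/985635)) * e4 + (-(105346368/1277675)*X2 + (18828032/1277675)*X4) * e5

theorem alg5 {R : Type} [CommRing R] [Algebra ℝ R] {A e U f2 f3 : R} {t Q : ℕ → R}
    {X2 X3 X4 X5 : ℝ} (g5 : Hn A e 5 = 0) (g6 : e * Hn A e 4 = 0)
    (n1 : ∀ c : ℝ, c • (A * e ^ 3) = 0 → c = 0) (hU : U = (1 / 4 : ℝ) • (A ^ 2 - 4 * e))
    (h : Ch 3 t Q U) (t2 : t 2 = (2 * X2) • A) (t3 : t 3 = (3 * X3) • Hn A e 2)
    (t4 : t 4 = (4 * X4) • Hn A e 3) (t5 : t 5 = (5 * X5) • Hn A e 4) (t6 : t 6 = 0) (t7 : t 7 = 0)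
    (t8 : t 8 = 0) (h2 : f2 = (1 / 2 : ℝ) • (Q 1 ^ 2 - Q 2))
    (h3 : f3 = (1 / 3 : ℝ) • (Q 3 - Q 1 * Q 2 + f2 * Q 1))
    (hk : ∀ k, Q (k + 4) = Q 1 * Q (k + 3) - f2 * Q (k + 2) + f3 * Q (k + 1)) :
    X3 = -1 / 3 ∧ X5 = -5 ∧ X4 = 2 * X2 ^ 3 - 6 * X2 ∧
      (2 * X2 - 3) * (2 * X2 + 3) * (2 * X2 - 1) * (2 * X2 + 1) = 0 := by
  have k4 : Q 4 = Q 1 * Q 3 - f2 * Q 2 + f3 * Q 1 := hk 0
  have k5 : Q 5 = Q 1 * Q 4 - f2 * Q 3 + f3 * Q 2 := hk 1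
  have k6 : Q 6 = Q 1 * Q 5 - f2 * Q 4 + f3 * Q 3 := hk 2
  have k7 : Q 7 = Q 1 * Q 6 - f2 * Q 5 + f3 * Q 4 := hk 3
  simp only [h3, h2, h.q7, h.q6, h.q5, h.q4, h.q3, h.q2, h.q1, t2, t3, t4, t5, t6, t7, t8, hU,
    Hn] at k4 k5 k6 k7 g5 g6
  refine cert5 (n1 _ ?_) (n1 _ ?_) (n1 _ ?_) (n1 _ ?_) (n1 _ ?_) (n1 _ ?_)
  · linear_combination (norm := algebra) (A ^ 3 * e ^ 0) * k4 -
      ((-(1/6)*X2^4 + X2^2*X3 - (7/12)*X2^2 - (4/3)*X2*X4 - (1/2)*X3^2 + (5/12)*X3 + X5 -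
      (115/288) : ℝ) • A ^ 2 + ((3/2)*X2^4 - 6*X2^2*X3 - (7/4)*X2^2 + 4*X2*X4 + 2*X3^2 + (5/6)*X3
      - X5 + (115/288) : ℝ) • e) * g5 - ((-(13/6)*X2^4 + 9*X2^2*X3 + (7/4)*X2^2 - (20/3)*X2*X4 -
      3*X3^2 - (5/4)*X3 + 2*X5 + (115/96) : ℝ) • A) * g6
  · linear_combination (norm := algebra) (A ^ 1 * e ^ 1) * k4 -
      ((0 : ℝ) • A ^ 2 + ((1/2)*X2^4 - 2*X2^2*X3 - (7/12)*X2^2 + (4/3)*X2*X4 + (1/2)*X3^2 +
      (5/6)*X3 - (575/288) : ℝ) • e) * g5 - ((-(2/3)*X2^4 + 3*X2^2*X3 - (8/3)*X2*X4 - X3^2 -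
      (5/12)*X3 + X5 + (115/72) : ℝ) • A) * g6
  · linear_combination (norm := algebra) (A ^ 2 * e ^ 0) * k5 -
      ((-(1/6)*X2^3*X3 + (1/36)*X2^3 + (1/2)*X2^2*X4 + (1/2)*X2*X3^2 - (5/24)*X2*X3 - X2*X5 +
      (17/48)*X2 - (5/6)*X3*X4 - (5/72)*X4 : ℝ) • A ^ 2 + (X2^3*X3 + (1/12)*X2^3 - (3/2)*X2^2*X4
      - 2*X2*X3^2 - (5/12)*X2*X3 + X2*X5 - (17/48)*X2 + (5/3)*X3*X4 - (5/72)*X4 : ℝ) • e) * g5 -
      ((-(3/2)*X2^3*X3 - (1/12)*X2^3 + (5/2)*X2^2*X4 + 3*X2*X3^2 + (5/8)*X2*X3 - 2*X2*X5 -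
      (17/16)*X2 - (5/2)*X3*X4 + (5/24)*X4 : ℝ) • A) * g6
  · linear_combination (norm := algebra) (A ^ 0 * e ^ 1) * k5 -
      ((0 : ℝ) • A ^ 2 + ((1/3)*X2^3*X3 + (1/36)*X2^3 - (1/2)*X2^2*X4 - (1/2)*X2*X3^2 -
      (5/12)*X2*X3 + (85/48)*X2 - (5/24)*X4 : ℝ) • e) * g5 - ((-(1/2)*X2^3*X3 + X2^2*X4 + X2*X3^2
      + (5/24)*X2*X3 - X2*X5 - (17/12)*X2 - (5/6)*X3*X4 + (5/36)*X4 : ℝ) • A) * g6
  · linear_combination (norm := algebra) (A ^ 1 * e ^ 0) * k6 -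
      (((1/24)*X2^4 - (1/6)*X2^3*X4 - (3/8)*X2^2*X3 + (1/2)*X2^2*X5 - (1/24)*X2^2 +
      (1/2)*X2*X3*X4 + (13/24)*X2*X4 + (1/4)*X3^2 - (1/2)*X3*X5 + (19/96)*X3 - (1/3)*X4^2 -
      (19/24)*X5 - (1105/8064) : ℝ) • A ^ 2 + ((1/8)*X2^4 + (1/2)*X2^3*X4 - (3/4)*X2^2*X3 -
      (1/2)*X2^2*X5 + (1/24)*X2^2 - X2*X3*X4 + (13/24)*X2*X4 + (1/2)*X3*X5 - (19/16)*X3 +
      (1/3)*X4^2 + (19/24)*X5 + (1105/384) : ℝ) • e) * g5 - ((-(1/8)*X2^4 - (5/6)*X2^3*X4 +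
      (9/8)*X2^2*X3 + X2^2*X5 + (1/8)*X2^2 + (3/2)*X2*X3*X4 - (13/8)*X2*X4 - (1/2)*X3^2 -
      (1/2)*X3*X5 + (19/96)*X3 - (1/3)*X4^2 + (19/12)*X5 - (14365/8064) : ℝ) • A) * g6
  · linear_combination (norm := algebra) (A ^ 0 * e ^ 0) * k7 -
      (((1/12)*X2^3*X3 - (1/6)*X2^3*X5 + (5/72)*X2^3 - (5/12)*X2^2*X4 - (1/4)*X2*X3^2 +
      (1/2)*X2*X3*X5 - (5/16)*X2*X3 + (7/8)*X2*X5 + (89/2016)*X2 + (7/12)*X3*X4 - (1/3)*X4*X5 +
      (91/144)*X4 : ℝ) • A ^ 2 + ((1/6)*X2^3*X3 + (1/6)*X2^3*X5 - (5/72)*X2^3 - (5/12)*X2^2*X4 -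
      (1/2)*X2*X3*X5 + (15/8)*X2*X3 - (7/8)*X2*X5 - (89/96)*X2 - (7/6)*X3*X4 + (1/3)*X4*X5 -
      (1001/144)*X4 : ℝ) • e) * g5 - ((-(1/4)*X2^3*X3 - (1/3)*X2^3*X5 - (5/24)*X2^3 +
      (5/4)*X2^2*X4 + (1/2)*X2*X3^2 + (1/2)*X2*X3*X5 - (5/16)*X2*X3 - (7/4)*X2*X5 +
      (1157/2016)*X2 - (7/12)*X3*X4 + (455/144)*X4 : ℝ) • A) * g6

end Vale.Agent.P280Z.Qs
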