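import Vale.Agent.P280Z.Qs.Gen

/-!
# P280Z, block Qs: dimension six, fibres of dimension four; the rings
-/

open Finset
open Vale.Agent.P231.ChW (NewtonRec)

noncomputable section

namespace Vale.Agent.P280Z.Qs.Q6

open Al Al.Cn

variable {A B : Type} [CommRing A] [Algebra ℝ A] [CommRing B] [Algebra ℝ B] {S : NS A B} {n r : ℕ}

omit [Algebra ℝ B] in
theorem bt_rec4 (w e1 e2 e3 e4 : B) {s : ℕ → B}
    (h : ∀ j, s (j + 4) = e1 * s (j + 3) - e2 * s (j + 2) + e3 * s (j + 1) - e4 * s j) (k : ℕ) :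
    bt w s (k + 4) = (e1 + 4 * w) * bt w s (k + 3) -
      (e2 + 3 * w * e1 + 6 * w ^ 2) * bt w s (k + 2) +
      (e3 + 2 * w * e2 + 3 * w ^ 2 * e1 + 4 * w ^ 3) * bt w s (k + 1) -
      (e4 + w * e3 + w ^ 2 * e2 + w ^ 3 * e1 + w ^ 4) * bt w s k := by
  have h4 : bt w (fun j => s (j + 1 + 1 + 1 + 1)) k = e1 * bt w (fun j => s (j + 1 + 1 + 1)) k -
      e2 * bt w (fun j => s (j + 1 + 1)) k + e3 * bt w (fun j => s (j + 1)) k - e4 * bt w s k := by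
    simp only [bt, mul_sum, ← sum_add_distrib, ← sum_sub_distrib]
    exact sum_congr rfl fun i _ => by rw [show s (i + 1 + 1 + 1 + 1) = _ from h i]; ring
  simp only [bt_succ w _ (k + 3), bt_succ w _ (k + 2), bt_succ w _ (k + 1), bt_succ w _ k, h4]
  ring

theorem newton4 {s e : ℕ → B} (h : NewtonRec ℝ s e) (h0 : s 0 = 4) (hz : ∀ j, 4 < j → e j = 0) :
    s 1 = e 1 ∧ s 2 = e 1 * s 1 - 2 * e 2 ∧ s 3 = e 1 * s 2 - e 2 * s 1 + 3 * e 3 ∧
      ∀ j, s (j + 4) = e 1 * s (j + 3) - e 2 * s (j + 2) + e 3 * s (j + 1) - e 4 * s j := by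
  have a0 := h.2 0
  have a1 := h.2 1
  have a2 := h.2 2
  have a3 := h.2 3
  simp only [sum_range_succ, sum_range_zero, Algebra.smul_def, map_add, map_pow, map_neg, map_one,
    map_natCast, Nat.reduceSub, Nat.reduceAdd, Nat.sub_self, h.1] at a0 a1 a2 a3
  push_cast at a0 a1 a2 a3
  refine ⟨by linear_combination -a0, by linear_combination a1, by linear_combination -a2,
    fun j => ?_⟩
  cases j with
  | zero =>
    simp only [Nat.zero_add, h0]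
    linear_combination a3
  | succ k =>
    have a := h.2 (k + 4)
    rw [hz _ (by omega), smul_zero, sum_range_succ, sum_range_succ, sum_range_succ, sum_range_succ,
      sum_range_succ, sum_eq_zero fun i hi => by
        rw [hz _ (by have := mem_range.1 hi; omega), mul_zero, smul_zero],
      show k + 4 - k = 4 by omega, show k + 4 - (k + 1) = 3 by omega,
      show k + 4 - (k + 2) = 2 by omega, show k + 4 - (k + 3) = 1 by omega, Nat.sub_self, h.1] at a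
    simp only [Algebra.smul_def, map_pow, map_neg, map_one] at a
    have b : ((-1 : B) ^ k) * (-1) ^ k = 1 := by rw [← mul_pow]; simp
    show s (k + 4 + 1) = e 1 * s (k + 3 + 1) - e 2 * s (k + 2 + 1) + e 3 * s (k + 1 + 1) -
      e 4 * s (k + 1)
    linear_combination -(-1) ^ k * a + (e 1 * s (k + 3 + 1) - e 2 * s (k + 2 + 1) +
      e 3 * s (k + 1 + 1) - e 4 * s (k + 1) - s (k + 4 + 1)) * b

/-- the recursion of Newton for four roots -/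
theorem nw4 (h : S.OK0 n 4) : ∃ f2 f3 f4 : B, f2 = (1 / 2 : ℝ) • (S.Q 1 ^ 2 - S.Q 2) ∧
    f3 = (1 / 3 : ℝ) • (S.Q 3 - S.Q 1 * S.Q 2 + f2 * S.Q 1) ∧
    f4 = (1 / 4 : ℝ) • (S.Q 1 * S.Q 3 - f2 * S.Q 2 + f3 * S.Q 1 - S.Q 4) ∧
    ∀ k, S.Q (k + 5) = S.Q 1 * S.Q (k + 4) - f2 * S.Q (k + 3) + f3 * S.Q (k + 2) -
      f4 * S.Q (k + 1) := by
  have h0 : S.pE 0 = 4 := by rw [h.E0]; norm_num
  obtain ⟨n1, n2, n3, n4⟩ := newton4 (ne_spec S.pE) h0 (h.rank _ (ne_spec S.pE))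
  have hr := bt_rec4 ((2 : ℝ)⁻¹ • S.τ) _ _ _ _ n4
  rw [← hQ] at hr
  have q1 : S.Q 1 = ne S.pE 1 + 4 * (2 : ℝ)⁻¹ • S.τ := by
    rw [hQ, bt_succ, bt_zero, bt_zero, h0, ← n1]; ring
  rw [← q1] at hr
  refine ⟨_, _, _, ?_, ?_, ?_, fun k => hr (k + 1)⟩
  · simp only [hQ, bt_succ _ _ 1, bt_succ _ _ 0, bt_zero, Nat.zero_add, Nat.reduceAdd, h0, n2, n1]
    algebra
  · simp only [hQ, bt_succ _ _ 2, bt_succ _ _ 1, bt_succ _ _ 0, bt_zero, Nat.zero_add,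
      Nat.reduceAdd, h0, n3, n2, n1]
    algebra
  · have := hr 0
    rw [q0 h] at this
    linear_combination (norm := (push_cast; algebra)) (1 / 4 : ℝ) • this

theorem q8 (h : S.OK0 n r) : S.Q 8 = (1 / 9 : ℝ) • S.T (S.es (S.pX 9)) -
    (28 / 3 : ℝ) • (S.Q 6 * S.uu) - 14 * S.Q 4 * S.uu ^ 2 - 4 * S.Q 2 * S.uu ^ 3 -
    ((512 + r : ℝ) / 9) • S.uu ^ 4 := by
  obtain ⟨g, ge, go, ht⟩ := tform h
  have g0 : g 0 = 0 := ge 0
  have g1 : g 1 = -S.uu ^ 0 := go 0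
  have g2 : g 2 = 0 := ge 1
  have g3 : g 3 = -S.uu ^ 1 := go 1
  have g4 : g 4 = 0 := ge 2
  have g5 : g 5 = -S.uu ^ 2 := go 2
  have g6 : g 6 = 0 := ge 3
  have g7 : g 7 = -S.uu ^ 3 := go 3
  have g8 : g 8 = 0 := ge 4
  have g9 : g 9 = -S.uu ^ 4 := go 4
  have e : (r : B) = (r : ℝ) • (1 : B) := by rw [Nat.cast_smul_eq_nsmul, nsmul_one]
  simp only [ht, sum_range_succ, sum_range_zero, Nat.choose, Nat.reduceSub, Nat.reduceAdd,
    Nat.sub_self, g0, g1, g2, g3, g4, g5, g6, g7, g8, g9, q0 h, e]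
  push_cast
  algebra

/-- the relations between the invariant classes -/
structure Rel (a e : B) : Prop where
  r0 : a ^ 9 = 42 * (a * e ^ 4)
  r1 : a ^ 7 * e = 14 * (a * e ^ 4)
  r2 : a ^ 5 * e ^ 2 = 5 * (a * e ^ 4)
  r3 : a ^ 3 * e ^ 3 = 2 * (a * e ^ 4)
  h6 : a ^ 6 - 5 * a ^ 4 * e + 6 * a ^ 2 * e ^ 2 - e ^ 3 = 0
  nz : ∀ c : ℝ, c • (a * e ^ 4) = 0 → c = 0

theorem elc (h : S.OK0 n 4) : ∃ D : ℝ, 0 < D ∧ S.el ((-S.τ) ^ 4) = algebraMap ℝ A D ∧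
    S.el (S.hc ^ 4) = algebraMap ℝ A D := by
  obtain ⟨D, D0, hD⟩ := h.D
  refine ⟨D, D0, hD, ?_⟩
  have e : S.hc ^ 4 = (-S.τ) ^ 4 + (S.hc * S.hc * S.hc - S.hc * S.hc * S.τ + S.hc * S.τ * S.τ -
      S.τ * S.τ * S.τ) * S.es S.η := by
    simp only [NS.hc, NS.hh]; ring
  have m := h.gu.dg_mul
  have c := dc h
  have t := h.dτ
  rw [e, map_add, hD, h.proj, map_sub, map_add, map_sub, lo h (by norm_num) (m _ _ _ _ (m _ _ _ _ c c) c),
    lo h (by norm_num) (m _ _ _ _ (m _ _ _ _ c c) t), lo h (by norm_num) (m _ _ _ _ (m _ _ _ _ c t) t),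
    lo h (by norm_num) (m _ _ _ _ (m _ _ _ _ t t) t)]
  simp

theorem ie5 (h : S.OK0 n r) : S.GU.int (S.ee ^ 5) = 0 := by
  have L := lei S n r h
  rw [L.int, show S.ee ^ 5 = S.ee * (S.ee * (S.ee * (S.ee * S.ee))) by ring]
  simp only [L.ker _ _ L.ee, L.ee, mul_zero, map_zero]

theorem Jnz (h : S.OK0 6 4) {c : ℝ} (hc : J S (c • (S.aa * S.ee ^ 4)) = 0) : c = 0 := by
  obtain ⟨D, D0, -, hD⟩ := elc h
  have e : J S (S.aa * S.ee ^ 4) = D * S.GX.int (S.η ^ 6) := by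
    show S.GU.int (S.hh * _) = _
    rw [show S.hh * (S.aa * S.ee ^ 4) = S.hc ^ 4 * S.es (S.η ^ 6) + S.ee ^ 5 by
      rw [map_pow]; simp only [NS.aa, NS.ee, NS.hh]; ring, map_add, ie5 h,
      add_zero, ← h.el_int, h.proj, hD, ← Algebra.smul_def, map_smul, smul_eq_mul]
  rw [map_smul, e, smul_eq_mul] at hc
  exact (mul_eq_zero.1 hc).resolve_right (mul_pos D0 h.vol).ne'

theorem rel (h : S.OK0 6 4) : Rel S.aa S.ee := by
  have h6 := Hz h (k := 6) le_rfl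
  have h7 := Hz h (k := 7) (by norm_num)
  simp only [NS.H, Hn] at h6 h7
  refine ⟨?_, ?_, ?_, ?_, by linear_combination h6, fun c hc => Jnz h (by rw [hc, map_zero])⟩
  · linear_combination (48 * S.aa ^ 3 - 70 * S.aa * S.ee) * h6 + (28 * S.ee - 47 * S.aa ^ 2) * h7
  · linear_combination (14 * S.aa ^ 3 - 22 * S.aa * S.ee) * h6 + (9 * S.ee - 14 * S.aa ^ 2) * h7
  · linear_combination (4 * S.aa ^ 3 - 7 * S.aa * S.ee) * h6 + (3 * S.ee - 4 * S.aa ^ 2) * h7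
  · linear_combination (S.aa ^ 3 - 2 * S.aa * S.ee) * h6 + (S.ee - S.aa ^ 2) * h7

theorem h7 (h : S.OK0 6 4) : S.hh ^ 7 = 0 := by
  rw [NS.hh, ← map_pow, hz h (by norm_num), map_zero]

theorem el5 (h : S.OK 6 4) : S.el (S.hc ^ 5) = 0 := by
  obtain ⟨c, hc⟩ := h.b2 _ (dl h.toOK0 (k := 1) (Elr.dg_pow h.gu (dc h.toOK0) 5))
  have e := h.el_int (S.hc ^ 5 * S.es (S.η ^ 5))
  rw [h.proj, hc, map_pow, ← mul_pow, mul_comm S.hc, smul_mul_assoc, ← pow_succ', map_smul,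
    smul_eq_mul] at e
  rw [hc, (mul_eq_zero.1 (e.trans (ie5 h.toOK0))).resolve_right h.vol.ne', zero_smul]

theorem two (h : S.OK 6 4) {a : A} (ha : S.GX.Dg 2 a) : ∃ x : ℝ, a = x • S.η ^ 2 := by
  have L := lei S 6 4 h.toOK0
  have dη := Elr.dg_pow h.gx h.dη
  have sp : ∀ b, S.GX.Dg 2 b → ∃ x : ℝ, S.η ^ 3 * (b - x • S.η ^ 2) = 0 := fun b hb => by
    obtain ⟨x, hx⟩ := top1 (n := 4) h (h.gx.dg_mul 3 2 _ _ (dη 3) hb)
    exact ⟨x, by linear_combination (norm := algebra) hx⟩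
  have tu : ∀ u, S.η ^ 3 * u = 0 → S.hc ^ 3 * S.T (S.es u) = -(S.es u * S.H 2) := fun u hu => by
    have e := L.mul (S.hh ^ 3) (S.es u)
    rw [L.pow 2, NS.hh, ← map_pow, ← map_mul, hu, map_zero, map_zero, map_pow] at e
    simp only [NS.H, Hn, NS.aa, NS.ee, NS.hc, NS.hh] at e ⊢
    linear_combination -e
  have c7 : S.hc ^ 7 = 0 := by
    have e := Hz h.toOK0 (k := 6) le_rfl
    have e' := h7 h.toOK0
    simp only [NS.H, Hn, NS.aa, NS.ee, NS.hc] at e ⊢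
    linear_combination e' - S.τ * e
  obtain ⟨D, D0, -, hD⟩ := elc h.toOK0
  have m := h.gu.dg_mul
  have c := dc h.toOK0
  have d := dh h.toOK0
  have key : ∀ u v, S.η ^ 3 * u = 0 → S.η ^ 3 * v = 0 → S.η * u * v = 0 := fun u v hu hv => by
    have e : S.hc ^ 5 * S.es (u * v) + S.hc ^ 4 * S.es (2 * S.η * u * v) +
        (3 • (S.hc * S.hc * S.hc) + 2 • (S.hc * S.hc * S.hh) + S.hc * S.hh * S.hh) *
          S.es (S.η ^ 2 * u * v) = 0 := by
      have e1 := tu u hu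
      have e2 := tu v hv
      simp only [map_mul, map_pow, map_ofNat]
      simp only [NS.H, Hn, NS.aa, NS.ee, NS.hh] at e1 e2 ⊢
      linear_combination S.T (S.es u) * S.T (S.es v) * c7 - S.hc ^ 4 * S.T (S.es v) * e1 +
        S.hc * S.es u * ((S.es S.η + S.hc) * (S.es S.η + S.hc) - S.es S.η * S.hc * 1) * e2
    have e' := congrArg S.el e
    rw [map_add, map_add, h.proj, h.proj, h.proj, el5 h, hD, map_add, map_add, map_nsmul, map_nsmul,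
      lo h.toOK0 (by norm_num) (m _ _ _ _ (m _ _ _ _ c c) c),
      lo h.toOK0 (by norm_num) (m _ _ _ _ (m _ _ _ _ c c) d),
      lo h.toOK0 (by norm_num) (m _ _ _ _ (m _ _ _ _ c d) d), map_zero] at e'
    have i : (2 * D)⁻¹ * (2 * D) = 1 := inv_mul_cancel₀ (by positivity)
    linear_combination (norm := algebra) (2 * D)⁻¹ • e' - i • (S.η * u * v)
  obtain ⟨x, hx⟩ := sp a ha
  have du := dg_sub ha (dη 2) x
  refine ⟨x, sub_eq_zero.1 ((h.hl 2 2 rfl).1 _ du (pd_dg h.gx (h.gx.dg_mul 2 2 _ _ (dη 2) du)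
    (k := 2) rfl fun b hb => ?_))⟩
  obtain ⟨y, hy⟩ := sp b hb
  rw [← map_zero S.GX.int]
  congr 1
  linear_combination (norm := algebra) S.η * key _ _ hx hy + y • (S.η * hx)

theorem four (h : S.OK 6 4) {a : A} (ha : S.GX.Dg 4 a) : ∃ x : ℝ, a = x • S.η ^ 4 := by
  obtain ⟨b, hb, rfl⟩ := (h.hl 2 2 rfl).2 a ha
  obtain ⟨x, rfl⟩ := two h hb
  exact ⟨x, by algebra⟩

theorem three (h : S.OK 6 4) {a : A} (ha : S.GX.Dg 3 a) :
    ∃ (x : ℝ) (y : A), S.GX.Dg 3 y ∧ S.η * y = 0 ∧ a = x • S.η ^ 3 + y := by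
  obtain ⟨x, hx⟩ := four h (h.gx.dg_mul 1 3 _ _ h.dη ha)
  exact ⟨x, _, dg_sub ha (Elr.dg_pow h.gx h.dη 3) x, by linear_combination (norm := algebra) hx,
    by ring⟩

theorem et (h : S.OK0 6 4) {y : A} (hy : S.η * y = 0) :
    S.es y = -(S.hc * S.T (S.es y)) ∧ S.ee * S.T (S.es y) = 0 := by
  have e := (lei S 6 4 h).mul S.hh (S.es y)
  have e0 : S.hh * S.es y = 0 := by rw [NS.hh, ← map_mul, hy, map_zero]
  rw [e0, map_zero, LeiH.th h] at e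
  simp only [NS.ee, NS.hc]
  exact ⟨by linear_combination -e, by linear_combination -S.hh * e - e0⟩

theorem att (h : S.OK0 6 4) {y z : A} (hy : S.η * y = 0) (hz : S.η * z = 0) {q : ℝ}
    (hq : y * z = q • S.η ^ 6) : S.aa * S.T (S.es y) * S.T (S.es z) =
      -q • (S.aa ^ 5 - 4 * S.aa ^ 3 * S.ee + 3 * S.aa * S.ee ^ 2) := by
  have e := (lei S 6 4 h).mul (S.es y) (S.es z)
  rw [← map_mul, hq, map_smul, map_smul, Tη h 5] at e
  have e1 := (et h hy).1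
  have e2 := (et h hz).1
  simp only [NS.H, Hn] at e
  have e3 : S.aa = 2 * S.hc + S.τ := by simp only [NS.aa, NS.hc]; ring
  linear_combination (norm := algebra) e + S.T (S.es y) * e2 + S.T (S.es z) * e1 +
    S.T (S.es y) * S.T (S.es z) * e3

end Vale.Agent.P280Z.Qs.Q6
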