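import Vale.Agent.P280Z.Qs.Q6a

/-!
# P280Z, block Qs: dimension six, fibres of dimension four; the equations
-/

noncomputable section

namespace Vale.Agent.P280Z.Qs.Q6

theorem cert1 {s x w q : ℝ}
    (a1 : 3*s^2 - 24*s*x + 24*s*w - 36*s + 32*x^2 - 32*x*w + 32*x + 576 = 0)
    (b1 : -9*s^3 + 288*s^2*x - 360*s^2*w + 576*s^2 - 1440*s*x^2 + 2880*s*x*w - 1440*s*x -
    1440*s*w^2 - 1440*s*w - 27216*s + 640*x^3 + 35712*x + 186624 = 0)
    (c1 : 2*s^3 - 8*s^2*x + 54*s^2*w - 73*s^2 - 400*s*x*w - 360*s*x + 400*s*w^2 + 880*s*w + 6828*s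
    + 320*x^2*w + 1440*x^2 - 1760*x*w - 15712*x - 8064*w - 84672 = 0)
    (a4 : s*q - 4*x*q + 4*w*q + 4*q = 0)
    (b2 : 2025*s^3 - 14976*s^2*x + 14760*s^2*w - 20628*s^2 + 13680*s*x^2 - 5760*s*x*w + 8640*s*x -
    8640*s*w^2 - 5760*s*w - 720*s*q + 283680*s + 4160*x^3 - 960*x*q + 285696*x + 373248 = 0)
    (b3 : -3*s^2*q + 30*s*x*q - 30*s*w*q + 60*s*q - 30*x^2*q + 10*q^2 - 2232*q = 0)
    (c2 : -2055*s^3 + 19428*s^2*x - 15828*s^2*w + 44652*s^2 - 45200*s*x^2 + 38880*s*x*w -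
    223920*s*x + 7200*s*w^2 + 168720*s*w + 1200*s*q - 609120*s + 30400*x^3 - 25280*x^2*w +
    275200*x^2 - 261120*x*w - 1600*x*q + 448512*x - 960*w*q + 338688*w - 7680*q + 4243968 = 0)
    (c3 : -693*s^2*q + 5600*s*x*q - 5520*s*w*q + 7560*s*q - 7600*x^2*q + 7520*x*w*q - 4240*x*q -
    2640*w*q + 400*q^2 - 134832*q = 0)
    : q = 0 ∧ w = -2 ∧ x = 0 ∧ s = 16 := by
  have hq : q = 0 := by
    linear_combination
      ((5/16128)*x*q - (1/6912)*w*q - (5/290304)*q) * a1 + (-(1/4354560)*q) * b1 +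
      (-(11/1451520)*q) * c1 + ((2749/1451520)*s^2 - (13/864)*s*x + (551/36288)*s*w -
      (449/24192)*s + (377/18144)*x^2 - (397/18144)*x*w + (233/36288)*x + (11/1512)*w - (1/1008)*q
      + (5281/15120)) * a4 + (-(1/4354560)*q) * b2 + (-(1/30240)*x + (1/45360)*w - (1/1620)) * b3
      + ((1/1451520)*q) * c2 + (-(1/145152)*x + (1/90720)*w + (1/25920)) * c3
  subst hq
  have hw : w = -2 := by
    linear_combination
      ((33947234150614169/166627148306595840000)*s^2*x -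
      (1773909150400901483/4986317413074880512000)*s^2*w +
      (12029178904199877727/22161410724777246720000)*s^2 -
      (287353153232454011/277017634059715584000)*s*x^2 +
      (56175517524379326553/19945269652299522048000)*s*x*w -
      (48370211868542006993/39890539304599044096000)*s*x -
      (2538891334850586377/1424662118021394432000)*s*w^2 -
      (3166222290738283823/415526451089573376000)*s*w -
      (662341170567334753/24623789694196940800)*s - (579001082877841/19682831893716633600)*x^3 -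
      (858672643231847/2136993177032091648000)*x^2*w +
      (4364118329613747193/586625578008809472000)*x^2 +
      (1677418158223151/59360921584224768000)*x*w^2 -
      (5673451967690088793/1246579353268720128000)*x*w +
      (9733931068459563899/259704031930983360000)*x + (15822133438375127/19786973861408256000)*w^2
      - (24383899014273662993/831052902179146752000)*w -
      (40933154065826731253/593609215842247680000)) * a1 +
      ((402789156408806549/256439181243850997760000)*s*x -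
      (402595068676663013/149589522392246415360000)*s*w +
      (26936589473740697/8310529021791467520000)*s -
      (1874673555302817581/224384283588369623040000)*x^2 +
      (10458221871711986941/448768567176739246080000)*x*w +
      (2150243604693517259/74794761196123207680000)*x -
      (57801499894512131/3561655295053486080000)*w^2 -
      (5217358317960567413/74794761196123207680000)*w -
      (266087308789696043/1780827647526743040000)) * b1 +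
      ((4588997890306651/28493242360427888640000)*s*x - (7236058781321/9112422173016960000)*s*w -
      (129051583618282543/16621058043582935040000)*s -
      (94313347737295609/49863174130748805120000)*x^2 +
      (105719287828278239/12465793532687201280000)*x*w +
      (314169779918349659/6232896766343600640000)*x - (317349381285461/98934869307041280000)*w^2 -
      (23411066719824479/831052902179146752000)*w - (81195339709730483/593609215842247680000)) *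
      c1 + (-(2225009144919853/7542328860113264640000)*s*x +
      (1224895490494999/2374436863368990720000)*s*w - (1461169873826797/9497747453475962880000)*s
      + (24227518379595461/16027448827740687360000)*x^2 -
      (226432350976875271/56096070897092405760000)*x*w -
      (247070095244021293/37397380598061603840000)*x +
      (17755979101573277/7123310590106972160000)*w^2 + (10946930755816171/712331059010697216000)*w
      + (18975207694174841/445206911881685760000)) * b2 +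
      ((4409733058667803/7123310590106972160000)*s +
      (3823246569040537/74794761196123207680000)*x*w -
      (30796805805203177/4155264510895733760000)*x - (45335625897923/593609215842247680000)*w^2 +
      (15385859079503261/3561655295053486080000)*w + (8835796445557781/890413823763371520000)) *
      c2
  subst hw
  have hx : x = 0 := by
    linear_combination
      (-(541/4714366720)*s^2 - (178153/29700510336)*s*x - (32283983/79201360896)*s +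
      (18155/7425127584)*x^2 - (159579857/19800340224)*x - (6121165069/99001701120)) * a1 +
      ((9889/84858600960)*s - (3631/29700510336)*x - (13284589/222753827520)) * b1 +
      ((2627/3771493376)*s - (685549/99001701120)*x - (17982239/99001701120)) * c1 +
      ((16526239/1782030620160)) * b2 + ((114111/13200226816)) * c2
  subst hx
  refine ⟨rfl, rfl, rfl, ?_⟩
  linear_combination
      ((1/288)*s - (29/72)) * a1 + ((1/864)) * b1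

theorem cert0 {x q y : ℝ}
    (b1 : 10*x^3 - 27*x*y + 72*x - 54*y + 1944 = 0)
    (b2 : 65*x^3 - 15*x*q - 216*x*y + 576*x - 108*y + 3888 = 0)
    (b3 : -15*x^2*q + 5*q^2 + 54*q*y - 144*q = 0)
    (d1 : 25*x^3 + 30*x^2*y - 180*x^2 + 25*x*q - 10*q*y + 60*q - 72*y^2 - 3276*y + 16848 = 0)
    (ch : 25*x^2 + 30*x - 25*q + 18*y - 108 = 0)
    : False := by
  have : (1 : ℝ) = 0 := by
    linear_combination
      (-(33603529/41610516295968)*x*q + (322886083/65016431712450)*x*y -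
      (7245639529/78019718054940)*x - (1156472443/624157744439520)*q +
      (21188523517/2600657268498000)*y + (966255513949/1300328634249000)) * b1 +
      ((204245570161/6241577444395200)*x - (7616000111/2600657268498000)*y -
      (411408026243/5201314536996000)) * b2 + (-(33603529/62415774443952)*x^2 -
      (125728303/62415774443952)*x - (33603529/124831548887904)*q +
      (5594257067/2080525814798400)*y + (100960876699/1040262907399200)) * b3 +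
      ((777900611/182502264456000)*x + (24837391/19010652547500)*y - (2043104443/152085220380000))
      * d1 + (-(322886083/162541079281125)*x^2*y - (30165020221/577923837444000)*x^2 -
      (364726051/780197180549400)*x*q + (550498759/1733771512332000)*x*y +
      (6577803469/433442878083000)*x - (33603529/624157744439520)*q^2 -
      (857620501/10402629073992000)*q*y + (110235450703/5201314536996000)*q +
      (24837391/4752663136875)*y^2 + (321143763487/1444809593610000)*y -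
      (298679343869/361202398402500)) * ch
  exact one_ne_zero this

variable {B : Type} [CommRing B] [Algebra ℝ B] {a e t : B} {q : ℝ}

/-- a pair of classes which come from primitive classes -/
structure Pr (a e t t' : B) (q : ℝ) : Prop where
  et : e * t' = 0
  att : a * t * t' = -q • (a ^ 5 - 4 * a ^ 3 * e + 3 * a * e ^ 2)

theorem Pr.t6 {t' : B} (R : Rel a e) (P : Pr a e t t' q) : a ^ 6 * t' = 0 := by
  linear_combination t' * R.h6 + (5 * a ^ 4 - 6 * a ^ 2 * e + e ^ 2) * P.et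

theorem Pr.s5 {t' : B} (R : Rel a e) (P : Pr a e t t' q) : a ^ 5 * t * t' = -q • (a * e ^ 4) := by
  linear_combination (norm := algebra) a ^ 4 * P.att - q • (R.r0 - 4 * R.r1 + 3 * R.r2)

theorem Pr.s3 {t' : B} {q' : ℝ} (R : Rel a e) (P : Pr a e t t q) (P' : Pr a e t t' q') :
    a ^ 3 * t ^ 2 * t' = 0 := by
  linear_combination (norm := algebra) a ^ 2 * t * P'.att - q' • (a * P.t6 R -
    (4 * a ^ 5 - 3 * a ^ 3 * e) * P.et)

theorem Pr.s1 (R : Rel a e) (P : Pr a e t t q) : a * t ^ 4 = q ^ 2 • (a * e ^ 4) := by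
  linear_combination (norm := algebra) t ^ 2 * P.att - q • (P.s5 R -
    (4 * a ^ 3 * t - 3 * a * e * t) * P.et)

theorem t5 (R : Rel a e) (P : Pr a e t t q) (α1 α2 α3 β1 β2 : ℝ) (W : B)
    (E : α1 • a ^ 5 + α2 • (a ^ 3 * e) + α3 • (a * e ^ 2) + β1 • (a ^ 3 * t) + β2 • (a * t ^ 2) +
      e * t * W = 0) : 5 * α1 + 2 * α2 + α3 = 0 ∧ 14 * α1 + 5 * α2 + 2 * α3 = 0 ∧
    42 * α1 + 14 * α2 + 5 * α3 - q * β2 = 0 ∧ ∀ t' q', Pr a e t t' q' → q' * β1 = 0 := by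
  refine ⟨R.nz _ ?_, R.nz _ ?_, R.nz _ ?_, fun t' q' P' => R.nz _ ?_⟩
  · linear_combination (norm := algebra) e ^ 2 * E - α1 • R.r2 - α2 • R.r3 -
      (β1 • (a ^ 3 * e) + β2 • (a * t * e) + e ^ 2 * W) * P.et
  · linear_combination (norm := algebra) a ^ 2 * e * E - α1 • R.r1 - α2 • R.r2 - α3 • R.r3 -
      (β1 • a ^ 5 + β2 • (a ^ 3 * t) + a ^ 2 * e * W) * P.et
  · linear_combination (norm := algebra) a ^ 4 * E - α1 • R.r0 - α2 • R.r1 - α3 • R.r2 -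
      β1 • (a * P.t6 R) - β2 • P.s5 R - a ^ 4 * W * P.et
  · linear_combination (norm := algebra) -(a ^ 2 * t' * E) + α1 • (a * P'.t6 R) + β1 • P'.s5 R +
      β2 • P.s3 R P' + (α2 • a ^ 5 + α3 • (a ^ 3 * e) + a ^ 2 * t * W) * P'.et

theorem t6 (R : Rel a e) (P : Pr a e t t q) (α1 α2 α3 α4 β1 β2 β3 : ℝ) (W : B)
    (E : α1 • a ^ 6 + α2 • (a ^ 4 * e) + α3 • (a ^ 2 * e ^ 2) + α4 • e ^ 3 + β1 • (a ^ 4 * t) +
      β2 • (a ^ 2 * t ^ 2) + β3 • t ^ 3 + e * t * W = 0) :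
    14 * α1 + 5 * α2 + 2 * α3 + α4 = 0 ∧ 42 * α1 + 14 * α2 + 5 * α3 + 2 * α4 - q * β2 = 0 ∧
      -q * β1 + q ^ 2 * β3 = 0 := by
  refine ⟨R.nz _ ?_, R.nz _ ?_, R.nz _ ?_⟩
  · linear_combination (norm := algebra) a * e * E - α1 • R.r1 - α2 • R.r2 - α3 • R.r3 -
      (β1 • a ^ 5 + β2 • (a ^ 3 * t) + β3 • (a * t ^ 2) + a * e * W) * P.et
  · linear_combination (norm := algebra) a ^ 3 * E - α1 • R.r0 - α2 • R.r1 - α3 • R.r2 -
      α4 • R.r3 - β1 • (a * P.t6 R) - β2 • P.s5 R - β3 • P.s3 R P - a ^ 3 * W * P.et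
  · linear_combination (norm := algebra) a * t * E - α1 • (a * P.t6 R) - β1 • P.s5 R -
      β2 • P.s3 R P - β3 • P.s1 R -
      (α2 • a ^ 5 + α3 • (a ^ 3 * e) + α4 • (a * e ^ 2) + a * t * W) * P.et

theorem t7 (R : Rel a e) (P : Pr a e t t q) (α1 α2 α3 α4 β1 β2 : ℝ) (W : B)
    (E : α1 • a ^ 7 + α2 • (a ^ 5 * e) + α3 • (a ^ 3 * e ^ 2) + α4 • (a * e ^ 3) +
      β1 • (a ^ 5 * t) + β2 • (a ^ 3 * t ^ 2) + e * t * W = 0) :
    14 * α1 + 5 * α2 + 2 * α3 + α4 = 0 ∧ 42 * α1 + 14 * α2 + 5 * α3 + 2 * α4 - q * β2 = 0 ∧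
      -q * β1 = 0 := by
  refine ⟨R.nz _ ?_, R.nz _ ?_, R.nz _ ?_⟩
  · linear_combination (norm := algebra) e * E - α1 • R.r1 - α2 • R.r2 - α3 • R.r3 -
      (β1 • a ^ 5 + β2 • (a ^ 3 * t) + e * W) * P.et
  · linear_combination (norm := algebra) a ^ 2 * E - α1 • R.r0 - α2 • R.r1 - α3 • R.r2 -
      α4 • R.r3 - β1 • (a * P.t6 R) - β2 • P.s5 R - a ^ 2 * W * P.et
  · linear_combination (norm := algebra) t * E - α1 • (a * P.t6 R) - β1 • P.s5 R -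
      β2 • P.s3 R P - (α2 • a ^ 5 + α3 • (a ^ 3 * e) + α4 • (a * e ^ 2) + t * W) * P.et

theorem t8 (R : Rel a e) (P : Pr a e t t q) (α1 α2 α3 α4 α5 β1 β2 β3 : ℝ) (W : B)
    (E : α1 • a ^ 8 + α2 • (a ^ 6 * e) + α3 • (a ^ 4 * e ^ 2) + α4 • (a ^ 2 * e ^ 3) + α5 • e ^ 4 +
      β1 • (a ^ 6 * t) + β2 • (a ^ 4 * t ^ 2) + β3 • (a ^ 2 * t ^ 3) + e * t * W = 0) :
    42 * α1 + 14 * α2 + 5 * α3 + 2 * α4 + α5 - q * β2 = 0 :=
  R.nz _ (by
    linear_combination (norm := algebra) a * E - α1 • R.r0 - α2 • R.r1 - α3 • R.r2 -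
      α4 • R.r3 - β1 • (a * P.t6 R) - β2 • P.s5 R - β3 • P.s3 R P - a * W * P.et)

theorem core (R : Rel a e) (P : Pr a e t t q) {x2 x3 x4 x5 x6 : ℝ} {T Q : ℕ → B} {U f2 f3 f4 : B}
    (hU : U = (1 / 4 : ℝ) • (a ^ 2 - 4 * e)) (C : Ch 4 T Q U)
    (q8 : Q 8 = (1 / 9 : ℝ) • T 9 - (28 / 3 : ℝ) • (Q 6 * U) - 14 * Q 4 * U ^ 2 - 4 * Q 2 * U ^ 3 -
      ((512 + 4 : ℝ) / 9) • U ^ 4)
    (T2 : T 2 = x2 • a) (T3 : T 3 = x3 • (a ^ 2 - e) + t) (T4 : T 4 = x4 • (a ^ 3 - 2 * a * e))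
    (T5 : T 5 = x5 • (a ^ 4 - 3 * a ^ 2 * e + e ^ 2))
    (T6 : T 6 = x6 • (a ^ 5 - 4 * a ^ 3 * e + 3 * a * e ^ 2)) (T7 : T 7 = 0) (T8 : T 8 = 0)
    (T9 : T 9 = 0) (g2 : f2 = (1 / 2 : ℝ) • (Q 1 ^ 2 - Q 2))
    (g3 : f3 = (1 / 3 : ℝ) • (Q 3 - Q 1 * Q 2 + f2 * Q 1))
    (g4 : f4 = (1 / 4 : ℝ) • (Q 1 * Q 3 - f2 * Q 2 + f3 * Q 1 - Q 4))
    (E : ∀ k, Q (k + 5) = Q 1 * Q (k + 4) - f2 * Q (k + 3) + f3 * Q (k + 2) - f4 * Q (k + 1)) :
    (x2 = 0 ∧ x4 = 0 ∧ 25 * x3 ^ 2 + 30 * x3 - 25 * q + 18 * x5 - 108 ≠ 0) ∨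
      (x2 ^ 2 = 16 ∧ x3 = 0 ∧ x4 = -2 * x2 ∧ x5 = -24 ∧ x6 = -14 * x2 ∧
        ∀ t' q', Pr a e t t' q' → q' = 0) := by
  have q1 : Q 1 = ((1/2)*x2 : ℝ) • a := by
    rw [C.q1, T2]; algebra
  have q2 : Q 2 = ((1/3)*x3 - 1 : ℝ) • a ^ 2 + (-(1/3)*x3 + 4 : ℝ) • e + ((1/3) : ℝ) • t := by
    rw [C.q2, T3, hU]; algebra
  have q3 : Q 3 = (-(1/8)*x2 + (1/4)*x4 : ℝ) • a ^ 3 + ((1/2)*x2 - (1/2)*x4 : ℝ) • (a * e) := by
    rw [C.q3, T4, q1, hU]; algebra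
  have q4 : Q 4 = (-(1/6)*x3 + (1/5)*x5 + (1/20) : ℝ) • a ^ 4 + ((5/6)*x3 - (3/5)*x5 - (2/5) :
    ℝ) • (a ^ 2 * e) + (-(1/6) : ℝ) • (a ^ 2 * t) + (-(2/3)*x3 + (1/5)*x5 + (4/5) : ℝ) • e ^ 2 +
    ((2/3) : ℝ) • (e * t) := by
    rw [C.q4, T5, q2, hU]; algebra
  have q5 : Q 5 = ((7/96)*x2 - (5/24)*x4 + (1/6)*x6 : ℝ) • a ^ 5 + (-(7/12)*x2 + (5/4)*x4 -
    (2/3)*x6 : ℝ) • (a ^ 3 * e) + ((7/6)*x2 - (5/3)*x4 + (1/2)*x6 : ℝ) • (a * e ^ 2) := by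
    rw [C.q5, T6, q3, q1, hU]; algebra
  have q6 : Q 6 = ((7/48)*x3 - (1/4)*x5 - (19/112) : ℝ) • a ^ 6 + (-(21/16)*x3 + (7/4)*x5 +
    (57/28) : ℝ) • (a ^ 4 * e) + ((7/48) : ℝ) • (a ^ 4 * t) + ((7/2)*x3 - (13/4)*x5 - (57/7) : ℝ)
    • (a ^ 2 * e ^ 2) + (-(7/6) : ℝ) • (a ^ 2 * e * t) + (-(7/3)*x3 + x5 + (76/7) : ℝ) • e ^ 3 +
    ((7/3) : ℝ) • (e ^ 2 * t) := by
    rw [C.q6, T7, q4, q2, hU]; algebra
  have q7 : Q 7 = (-(31/384)*x2 + (49/192)*x4 - (7/24)*x6 : ℝ) • a ^ 7 + ((31/32)*x2 -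
    (245/96)*x4 + (7/3)*x6 : ℝ) • (a ^ 5 * e) + (-(31/8)*x2 + (49/6)*x4 - (133/24)*x6 : ℝ) • (a ^
    3 * e ^ 2) + ((31/6)*x2 - (49/6)*x4 + (7/2)*x6 : ℝ) • (a * e ^ 3) := by
    rw [C.q7, T8, q5, q3, q1, hU]; algebra
  have f2e : f2 = ((1/8)*x2^2 - (1/6)*x3 + (1/2) : ℝ) • a ^ 2 + ((1/6)*x3 - 2 : ℝ) • e + (-(1/6)
    : ℝ) • t := by
    rw [g2, q1, q2]; algebra
  have f3e : f3 = ((1/48)*x2^3 - (1/12)*x2*x3 + (5/24)*x2 + (1/12)*x4 : ℝ) • a ^ 3 +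
    ((1/12)*x2*x3 - (5/6)*x2 - (1/6)*x4 : ℝ) • (a * e) + (-(1/12)*x2 : ℝ) • (a * t) := by
    rw [g3, q1, q2, q3, f2e]; algebra
  have f4e : f4 = ((1/384)*x2^4 - (1/48)*x2^2*x3 + (1/24)*x2^2 + (1/24)*x2*x4 + (1/72)*x3^2 -
    (1/24)*x3 - (1/20)*x5 + (9/80) : ℝ) • a ^ 4 + ((1/48)*x2^2*x3 - (1/6)*x2^2 - (1/12)*x2*x4 -
    (1/36)*x3^2 + (5/24)*x3 + (3/20)*x5 - (9/10) : ℝ) • (a ^ 2 * e) + (-(1/48)*x2^2 + (1/36)*x3 -
    (1/24) : ℝ) • (a ^ 2 * t) + ((1/72)*x3^2 - (1/6)*x3 - (1/20)*x5 + (9/5) : ℝ) • e ^ 2 +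
    (-(1/36)*x3 + (1/6) : ℝ) • (e * t) + ((1/72) : ℝ) • t ^ 2 := by
    rw [g4, q1, q2, q3, q4, f2e, f3e]; algebra
  have E5 : Q 5 = Q 1 * Q 4 - f2 * Q 3 + f3 * Q 2 - f4 * Q 1 := E 0
  have E6 : Q 6 = Q 1 * Q 5 - f2 * Q 4 + f3 * Q 3 - f4 * Q 2 := E 1
  have E7 : Q 7 = Q 1 * Q 6 - f2 * Q 5 + f3 * Q 4 - f4 * Q 3 := E 2
  have E8 : Q 8 = Q 1 * Q 7 - f2 * Q 6 + f3 * Q 5 - f4 * Q 4 := E 3
  rw [q8, T9, hU] at E8
  simp only [q1, q2, q3, q4, q5, q6, q7, f2e, f3e, f4e] at E5 E6 E7 E8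
  clear q1 q2 q3 q4 q5 q6 q7 q8 f2e f3e f4e g2 g3 g4 E C T2 T3 T4 T5 T6
  obtain ⟨a1, a2, a3, a4⟩ := t5 R P ((1/768)*x2^5 - (5/288)*x2^3*x3 + (5/192)*x2^3 +
    (5/96)*x2^2*x4 + (5/144)*x2*x3^2 - (5/72)*x2*x3 - (1/8)*x2*x5 + (1/4)*x2 - (5/72)*x3*x4 +
    (1/6)*x6) ((5/288)*x2^3*x3 - (5/48)*x2^3 - (5/48)*x2^2*x4 - (5/72)*x2*x3^2 + (25/72)*x2*x3 +
    (3/8)*x2*x5 - 2*x2 + (5/24)*x3*x4 - (2/3)*x6) ((5/144)*x2*x3^2 - (5/18)*x2*x3 - (1/8)*x2*x5 +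
    4*x2 - (5/36)*x3*x4 + (1/2)*x6) (-(5/288)*x2^3 + (5/72)*x2*x3 - (5/72)*x2 - (5/72)*x4)
    ((5/144)*x2) ((-(5/72)*x2*x3 + (5/18)*x2 + (5/36)*x4 : ℝ) • a)
    (by linear_combination (norm := algebra) E5)
  obtain ⟨b1, b2, b3⟩ := t6 R P ((1/1152)*x2^4*x3 - (1/192)*x2^3*x4 - (1/144)*x2^2*x3^2 +
    (1/288)*x2^2*x3 + (1/40)*x2^2*x5 - (11/240)*x2^2 + (5/144)*x2*x3*x4 + (1/48)*x2*x4 -
    (1/12)*x2*x6 + (1/216)*x3^3 - (1/20)*x3*x5 + (2/15)*x3 - (1/48)*x4^2 - (1/10)*x5 - (9/35))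
    (-(1/1152)*x2^4*x3 + (1/96)*x2^3*x4 + (1/72)*x2^2*x3^2 - (5/288)*x2^2*x3 - (3/40)*x2^2*x5 +
    (11/30)*x2^2 - (5/48)*x2*x3*x4 - (1/8)*x2*x4 + (1/3)*x2*x6 - (1/72)*x3^3 + (1/5)*x3*x5 -
    (6/5)*x3 + (1/12)*x4^2 + (7/10)*x5 + (108/35)) (-(1/144)*x2^2*x3^2 + (1/72)*x2^2*x3 +
    (1/40)*x2^2*x5 - (11/15)*x2^2 + (5/72)*x2*x3*x4 + (1/6)*x2*x4 - (1/4)*x2*x6 + (1/72)*x3^3 -
    (1/5)*x3*x5 + (16/5)*x3 - (1/12)*x4^2 - (13/10)*x5 - (432/35)) (-(1/216)*x3^3 + (1/20)*x3*x5 -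
    (32/15)*x3 + (2/5)*x5 + (576/35)) ((1/1152)*x2^4 - (1/72)*x2^2*x3 + (1/288)*x2^2 +
    (5/144)*x2*x4 + (1/72)*x3^2 - (1/20)*x5 + (2/15)) (-(1/144)*x2^2 + (1/72)*x3) ((1/216))
    (((1/72)*x2^2*x3 - (1/72)*x2^2 - (5/72)*x2*x4 - (1/36)*x3^2 + (3/20)*x5 - (16/15) : ℝ) • a ^ 2
    + ((1/72)*x3^2 - (1/20)*x5 + (32/15) : ℝ) • e + (-(1/72)*x3 : ℝ) • t)
    (by linear_combination (norm := algebra) E6)
  have a5 := a4 t q P
  by_cases h : x2 = 0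
  · subst h
    have h34 : x3 * x4 = 0 := by linear_combination (-72 / 5) * a1
    have h4 : x4 = 0 := by
      by_contra h4
      have h3 := (mul_eq_zero.1 h34).resolve_right h4
      subst h3
      exact h4 (pow_eq_zero_iff two_ne_zero |>.1 (by linear_combination 12 * b1 - 12 * b2))
    subst h4
    have h6 : x6 = 0 := by linear_combination 6 * a3
    subst h6
    refine Or.inl ⟨rfl, rfl, fun hc => ?_⟩
    have d1 := t8 R P (-(1/432)*x3^3 + (1/360)*x3^2*x5 - (1/60)*x3^2 + (1/24)*x3*x5 -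
      (17/126)*x3 - (1/100)*x5^2 + (91/300)*x5 + (39/350)) ((7/432)*x3^3 - (1/72)*x3^2*x5 +
      (1/6)*x3^2 - (1/3)*x3*x5 + (221/126)*x3 + (3/50)*x5^2 - (1001/300)*x5 - (312/175))
      (-(5/144)*x3^3 + (1/45)*x3^2*x5 - (11/20)*x3^2 + (5/6)*x3*x5 - (170/21)*x3 - (11/100)*x5^2 +
      (3731/300)*x5 + (1872/175)) ((13/432)*x3^3 - (1/72)*x3^2*x5 + (2/3)*x3^2 - (17/24)*x3*x5 +
      (136/9)*x3 + (3/50)*x5^2 - (1274/75)*x5 - (4992/175)) (-(1/108)*x3^3 + (1/360)*x3^2*x5 -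
      (4/15)*x3^2 + (1/6)*x3*x5 - (544/63)*x3 - (1/100)*x5^2 + (364/75)*x5 + (4992/175))
      (-(1/144)*x3^2 + (1/180)*x3*x5 - (1/30)*x3 + (1/24)*x5 - (17/126)) (-(1/144)*x3 + (1/360)*x5
      - (1/60)) (-(1/432)) (((1/24)*x3^2 - (1/45)*x3*x5 + (3/10)*x3 - (7/24)*x5 + (34/21) : ℝ) • a
      ^ 4 + (-(1/16)*x3^2 + (1/45)*x3*x5 - (4/5)*x3 + (13/24)*x5 - (136/21) : ℝ) • (a ^ 2 * e) +
      ((1/36)*x3^2 - (1/180)*x3*x5 + (8/15)*x3 - (1/6)*x5 + (544/63) : ℝ) • e ^ 2 + ((5/144)*x3 -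
      (1/120)*x5 + (2/15) : ℝ) • (a ^ 2 * t) + (-(1/36)*x3 + (1/360)*x5 - (4/15) : ℝ) • (e * t) +
      ((1/108) : ℝ) • t ^ 2)
      (by linear_combination (norm := algebra) E8)
    exact cert0 (x := x3) (q := q) (y := x5) (by linear_combination 540 * b1)
      (by linear_combination 1080 * b2) (by linear_combination 1080 * b3)
      (by linear_combination 3600 * d1) hc
  obtain ⟨c1, c2, c3⟩ := t7 R P (-(1/3072)*x2^5 + (1/1536)*x2^4*x4 + (7/1152)*x2^3*x3 -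
    (1/240)*x2^3*x5 + (11/3840)*x2^3 - (1/192)*x2^2*x3*x4 - (1/48)*x2^2*x4 + (1/48)*x2^2*x6 -
    (1/64)*x2*x3^2 + (1/60)*x2*x3*x5 - (59/1440)*x2*x3 + (1/96)*x2*x4^2 + (43/480)*x2*x5 +
    (9/560)*x2 + (1/288)*x3^2*x4 + (11/288)*x3*x4 - (1/36)*x3*x6 - (7/240)*x4*x5 + (7/40)*x4 -
    (5/24)*x6) ((1/768)*x2^5 - (1/768)*x2^4*x4 - (35/1152)*x2^3*x3 + (1/80)*x2^3*x5 -
    (11/480)*x2^3 + (1/64)*x2^2*x3*x4 + (1/8)*x2^2*x4 - (1/12)*x2^2*x6 + (3/32)*x2*x3^2 -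
    (1/15)*x2*x3*x5 + (59/160)*x2*x3 - (1/24)*x2*x4^2 - (301/480)*x2*x5 - (27/140)*x2 -
    (1/72)*x3^2*x4 - (77/288)*x3*x4 + (5/36)*x3*x6 + (7/48)*x4*x5 - (7/4)*x4 + (5/3)*x6)
    ((7/288)*x2^3*x3 - (1/240)*x2^3*x5 + (11/240)*x2^3 - (1/96)*x2^2*x3*x4 - (1/6)*x2^2*x4 +
    (1/16)*x2^2*x6 - (9/64)*x2*x3^2 + (1/15)*x2*x3*x5 - (59/60)*x2*x3 + (1/24)*x2*x4^2 +
    (559/480)*x2*x5 + (27/35)*x2 + (5/288)*x3^2*x4 + (77/144)*x3*x4 - (7/36)*x3*x6 -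
    (49/240)*x4*x5 + (28/5)*x4 - (95/24)*x6) ((1/16)*x2*x3^2 - (1/60)*x2*x3*x5 + (59/90)*x2*x3 -
    (43/120)*x2*x5 - (36/35)*x2 - (1/144)*x3^2*x4 - (11/36)*x3*x4 + (1/12)*x3*x6 + (7/120)*x4*x5 -
    (28/5)*x4 + (5/2)*x6) ((7/1152)*x2^3 - (1/192)*x2^2*x4 - (1/32)*x2*x3 + (1/60)*x2*x5 -
    (59/1440)*x2 + (1/144)*x3*x4 + (11/288)*x4 - (1/36)*x6) (-(1/64)*x2 + (1/288)*x4)
    ((-(7/288)*x2^3 + (1/96)*x2^2*x4 + (5/32)*x2*x3 - (1/20)*x2*x5 + (59/180)*x2 - (1/48)*x3*x4 -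
    (11/48)*x4 + (1/9)*x6 : ℝ) • a ^ 3 + (-(1/8)*x2*x3 + (1/60)*x2*x5 - (59/90)*x2 + (1/72)*x3*x4
    + (11/36)*x4 - (1/12)*x6 : ℝ) • (a * e) + ((1/16)*x2 - (1/144)*x4 : ℝ) • (a * t))
    (by linear_combination (norm := algebra) E7)
  clear E5 E6 E7 E8
  have h5 : x5 = -(1/96)*x2^4 + (5/8)*x2^2 + (5/12)*x2*x4 - 18 :=
    mul_left_cancel₀ h (by linear_combination 24 * a1 - 8 * a2)
  subst h5
  have h6 : x6 = (5/24)*q*x2 - (47/128)*x2^5 + (35/12)*x2^3*x3 + (145/32)*x2^3 - (45/16)*x2^2*x4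
    - (95/24)*x2*x3^2 - (10/3)*x2*x3 - (165/2)*x2 + (25/6)*x3*x4 := by linear_combination 6 * a3
  subst h6
  obtain ⟨w, rfl⟩ : ∃ w, x4 = x2 * w := ⟨x4 / x2, by field_simp⟩
  obtain ⟨rfl, rfl, rfl, hs⟩ := cert1 (s := x2 ^ 2) (x := x3) (w := w) (q := q)
    (mul_left_cancel₀ h (by linear_combination (2304 / 5) * a1))
    (by linear_combination 34560 * b1)
    (mul_left_cancel₀ h (by linear_combination 46080 * c1))
    (mul_left_cancel₀ h (by linear_combination (-288 / 5) * a5))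
    (by linear_combination 69120 * b2)
    (by linear_combination 2160 * b3)
    (mul_left_cancel₀ h (by linear_combination 276480 * c2))
    (mul_left_cancel₀ h (by linear_combination 69120 * c3))
  refine Or.inr ⟨hs, rfl, by ring, ?_, ?_, fun t' q' P' => ?_⟩
  · linear_combination (-1 / 96 * x2 ^ 2 - 3 / 8) * hs
  · linear_combination (-47 / 128 * x2 ^ 3 + 137 / 32 * x2) * hs
  · have := a4 t' q' P'
    refine mul_left_cancel₀ h ?_
    linear_combination (-24 / 5) * this - q' * x2 / 12 * hs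

end Vale.Agent.P280Z.Qs.Q6
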