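import Vale.Agent.P280Z.Qs.Gen

/-!
# P280Z, block Qs: fibres of dimension one
-/

open Finset

noncomputable section

namespace Vale.Agent.P280Z.Qs

open Al Al.Cn

variable {A B : Type} [CommRing A] [Algebra ℝ A] [CommRing B] [Algebra ℝ B] {S : NS A B} {n : ℕ}

theorem pEk (h : S.OK0 n 1) (k : ℕ) : S.pE k = S.pE 1 ^ k := by
  obtain ⟨s, s0, s1⟩ : ∃ s : ℕ → B, s 0 = 3 ∧ ∀ k, s (k + 1) = S.pE (k + 1) :=
    ⟨fun k => if k = 0 then 3 else S.pE k, rfl, fun _ => rfl⟩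
  have z := h.rank _ (ne_spec S.pE)
  obtain ⟨n1, n2, n3⟩ := newton3 (s := s) (e := ne S.pE)
    ⟨(ne_spec S.pE).1, fun j => by simp only [s1]; exact (ne_spec S.pE).2 j⟩ s0 fun j hj => z j (by omega)
  simp only [z 3 (by norm_num), z 2 (by norm_num), zero_mul, add_zero, sub_zero, s1] at n3 n2
  rw [s1] at n1
  rw [← n1] at n2 n3
  induction k using Nat.strong_induction_on with
  | _ k ih =>
    rcases k with _ | _ | _ | k
    · rw [h.E0, pow_zero, Nat.cast_one]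
    · rw [zero_add, pow_one]
    · rw [n2]; ring
    · rw [n3, ih (k + 2) (by omega)]; ring

/-- the invariant power sums of one root -/
theorem Qk (h : S.OK0 n 1) (k : ℕ) : S.Q k = S.Q 1 ^ k := by
  have e : ∀ k, S.Q k = (S.pE 1 + (2 : ℝ)⁻¹ • S.τ) ^ k := fun k => by
    rw [add_pow, NS.Q]
    refine sum_congr rfl fun j _ => ?_
    rw [pEk h j, Algebra.smul_def, map_natCast, mul_comm]
  rw [e, e 1, pow_one]

theorem Q1 (h : S.OK0 n 1) : S.Q 1 = S.pE 1 + (2 : ℝ)⁻¹ • S.τ := by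
  rw [hQ, bt_succ, bt_zero, bt_zero, h.E0]; push_cast; ring

end Vale.Agent.P280Z.Qs
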