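import Mathlib

/-!
# P280Z, block Qs: the real equations in dimension six, for fibres of dimension one
-/

namespace Vale.Agent.P280Z.Qs.T61

theorem cert {m D R y : ℝ} (d γ : ℤ) (hD : D = d) (d0 : 0 < D) (hγ : (m + 1) * D = 2 * γ)
    (h1 : 0 < γ → γ = 2) (hy : y = m ^ 2)
    (E1 : (35 * y ^ 3 - 105 * y ^ 2 + 105 * y - 4515) * R + (63 * y ^ 3 * D - 91 * y ^ 3 -
      105 * y ^ 2 * D + 245 * y ^ 2 + 21 * y * D - 105 * y + 2709 * D - 6321) = 0)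
    (E2 : (-10 * y ^ 2 * D + 25 * y ^ 2 + 20 * y * D - 30 * y - 330 * D + 165) * R +
      (-15 * y ^ 2 * D ^ 2 + 70 * y ^ 2 * D - 65 * y ^ 2 + 10 * y * D ^ 2 - 60 * y * D + 70 * y +
        165 * D ^ 2 - 330 * D - 165) = 0) :
    (D = 1 ∧ y = 9 ∧ R = 1) ∨ (D = 4 ∧ m = 0 ∧ R = 1) ∨ (m = -1 ∧ (D = 3 ∨ D = 4)) := by
  have f : D ^ 2 * (3 * y ^ 5 - 11 * y ^ 4 + 750 * y ^ 3 + 1242 * y ^ 2 - 2145 * y + 4257) +
      D * (-y ^ 5 - 19 * y ^ 4 - 1370 * y ^ 3 - 9078 * y ^ 2 + 11595 * y - 29799) +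
      (12 * y ^ 4 + 144 * y ^ 3 + 12360 * y ^ 2 - 14448 * y + 51084) = 0 := by
    linear_combination (35 * y ^ 3 - 105 * y ^ 2 + 105 * y - 4515) / 35 * E2 -
      (-10 * y ^ 2 * D + 25 * y ^ 2 + 20 * y * D - 30 * y - 330 * D + 165) / 35 * E1
  have y0 : 0 ≤ y := hy ▸ sq_nonneg m
  have y3 := pow_nonneg y0 3
  have hd : 0 < d := by exact_mod_cast hD ▸ d0
  have g : (γ : ℝ) = 2 ∨ (γ : ℝ) = 0 ∨ (γ : ℝ) = -1 ∨ (γ : ℝ) ≤ -2 := by
    have : γ = 2 ∨ γ = 0 ∨ γ = -1 ∨ γ ≤ -2 := by omega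
    exact_mod_cast this
  obtain k | k | k | k | k : d = 1 ∨ d = 2 ∨ d = 3 ∨ d = 4 ∨ 5 ≤ d := by omega
  · obtain rfl : D = 1 := by rw [hD, k]; norm_num
    have k9 : y = 9 → 1 = (1 : ℝ) ∧ y = 9 ∧ R = 1 := fun e => ⟨rfl, e, by rw [e] at E1; linarith⟩
    rcases g with g | g | g | g
    · exact .inl (k9 (by rw [hy, show m = 3 by linarith]; norm_num))
    · rw [hy, show m = -1 by linarith] at f
      norm_num at f
    · exact .inl (k9 (by rw [hy, show m = -3 by linarith]; norm_num))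
    · have : 25 ≤ y := by nlinarith
      obtain ⟨t, rfl⟩ : ∃ t, y = 25 + t := ⟨y - 25, by ring⟩
      have t0 : 0 ≤ t := by linarith
      have : 0 ≤ 2 * t ^ 5 + 232 * t ^ 4 + 10224 * t ^ 3 + 213824 * t ^ 2 + 2109952 * t := by
        positivity
      nlinarith
  · obtain rfl : D = 2 := by rw [hD, k]; norm_num
    nlinarith [mul_nonneg y3 (sq_nonneg (2 * y - 7)), mul_nonneg y0 (sq_nonneg (y - 2)),
      sq_nonneg (y - 2)]
  · obtain rfl : D = 3 := by rw [hD, k]; norm_num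
    rcases g with g | g | g
    · rw [hy, show m = 1 / 3 by linarith] at f
      norm_num at f
    · exact .inr (.inr ⟨by linarith, .inl rfl⟩)
    · have : m ≤ -5 / 3 := by rcases g with g | g <;> linarith
      have : 2 ≤ y := by nlinarith
      nlinarith [mul_nonneg y3 (sq_nonneg (y - 3)), mul_nonneg y0 (sq_nonneg (y - 2)),
        mul_nonneg y0 (sub_nonneg.2 this)]
  · obtain rfl : D = 4 := by rw [hD, k]; norm_num
    rcases g with g | g | g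
    · obtain rfl : m = 0 := by linarith
      refine .inr (.inl ⟨rfl, rfl, ?_⟩)
      rw [hy] at E1
      linarith
    · exact .inr (.inr ⟨by linarith, .inr rfl⟩)
    · have : m ≤ -3 / 2 := by rcases g with g | g <;> linarith
      have : 2 ≤ y := by nlinarith
      nlinarith [mul_nonneg y3 (sq_nonneg (y - 3)), mul_nonneg y0 (sq_nonneg (y - 2)),
        mul_nonneg y0 (sub_nonneg.2 this)]
  · obtain ⟨t, rfl⟩ : ∃ t, D = 5 + t := ⟨D - 5, by ring⟩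
    have t0 : 0 ≤ t := by
      have : (5 : ℝ) ≤ d := by exact_mod_cast k
      linarith
    have a : 0 ≤ 3 * y ^ 5 - 11 * y ^ 4 + 750 * y ^ 3 + 1242 * y ^ 2 - 2145 * y + 4257 := by
      nlinarith [mul_nonneg y3 (sq_nonneg (y - 2)), sq_nonneg (y - 1)]
    have b : 0 ≤ 29 * y ^ 5 - 129 * y ^ 4 + 6130 * y ^ 3 + 3342 * y ^ 2 - 9855 * y + 12771 := by
      nlinarith [mul_nonneg y3 (sq_nonneg (y - 2)), mul_nonneg y3 (sq_nonneg (y - 3)),
        sq_nonneg (2 * y - 3)]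
    have c : 0 < 70 * y ^ 5 - 358 * y ^ 4 + 12044 * y ^ 3 - 1980 * y ^ 2 - 10098 * y + 8514 := by
      nlinarith [mul_nonneg y3 (sq_nonneg (y - 2)), mul_nonneg y3 (sq_nonneg (y - 3)),
        mul_nonneg y0 (sq_nonneg (5 * y - 3)), sq_nonneg (5 * y - 3)]
    nlinarith [mul_nonneg t0 b, mul_nonneg (sq_nonneg t) a]

end Vale.Agent.P280Z.Qs.T61
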