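import Vale.Agent.P280Z.Qs.S41
import Vale.Agent.P280Z.Qs.T61a
import Vale.Agent.P280Z.R1.Defs
import Vale.Agent.P280Z.Gz.PlD
import Vale.Agent.P280Z.Gz.DqD
import Vale.Agent.P280Z.Hr.Tdx

/-!
# P280Z, block Qs: dimension six and fibres of dimension one do not occur
-/

open PowerSeries

noncomputable section

namespace Vale.Agent.P280Z.Qs

open Al Al.Cn

variable {A B : Type} [CommRing A] [Algebra ℝ A] [CommRing B] [Algebra ℝ B] {S : NS A B}

namespace T61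

theorem Tm (h : S.OK0 6 1) {u : A} (hu : S.T (S.es u) = 0) (k : ℕ) :
    S.T (S.es (S.η ^ (k + 1) * u)) = S.es u * S.H k := by
  rw [mul_comm, map_mul, (lei S _ _ h).ker _ _ hu, Tη h]

theorem rel (h : S.OK0 6 1) {u : A} (hu : S.T (S.es u) = 0) {i : ℕ} {c : ℝ}
    (e : S.η ^ (i + 1) * u = c • S.η ^ 5) :
    S.es u * S.H i = c • S.H 4 ∧ S.es u * S.H (i + 1) = c • S.H 5 ∧ S.es u * S.H (i + 2) = 0 := by
  refine ⟨by rw [← Tm h hu, e, map_smul, map_smul, Tη h], ?_, ?_⟩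
  · rw [← Tm h hu, pow_succ', mul_assoc, e, mul_smul_comm, ← pow_succ', map_smul, map_smul, Tη h]
  · rw [← Tm h hu, show i + 2 + 1 = 2 + (i + 1) by ring, pow_add, mul_assoc, e, mul_smul_comm,
      ← pow_add, hz h (by norm_num), smul_zero, map_zero, map_zero]

theorem z6 (h : S.OK0 6 1) {u : A} (du : S.GX.Dg 6 u) (hu : S.T (S.es u) = 0) : u = 0 := by
  obtain ⟨f, rfl⟩ := top0 h du
  rw [map_smul, map_smul, Tη h] at hu
  have := congrArg (fun x => J S (S.aa * x)) hu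
  simp only [mul_smul_comm, map_smul, mul_zero, map_zero, smul_eq_mul] at this
  rw [(mul_eq_zero.1 this).resolve_right (S41.pos h).ne', zero_smul]

theorem z4 (h : S.OK 6 1) (k : J S (S.aa * S.ee * S.H 3) ≠ 0) {u : A} (du : S.GX.Dg 4 u)
    (hu : S.T (S.es u) = 0) : S.η * u = 0 := by
  obtain ⟨c, hc⟩ := top1 (n := 4) h (h.gx.dg_mul 1 4 _ _ h.dη du)
  obtain ⟨a, b, -⟩ := rel h.toOK0 hu (i := 0) (by rw [zero_add, pow_one]; exact hc)
  have : c • (S.aa * S.ee * S.H 3) = 0 := by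
    simp only [NS.H, Hn] at a b ⊢
    linear_combination (norm := algebra) S.aa * b - S.aa ^ 2 * a
  have := congrArg (J S) this
  rw [map_smul, map_zero, smul_eq_mul] at this
  rw [hc, (mul_eq_zero.1 this).resolve_right k, zero_smul]

/-- the Todd genus, if the even power sums are those of `m η ^ k` up to invariant classes -/
theorem td (h : S.OK 6 1) (k : J S (S.aa * S.ee * S.H 3) ≠ 0) {m : ℝ}
    (t : ∀ j, j = 1 ∨ j = 3 ∨ j = 5 → S.T (S.es (S.pX (j + 1))) = m • S.H j)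
    (c0 : ∀ (u : B) (c : ℝ), u * S.H 2 = c • S.H 4 → u * S.H 3 = c • S.H 5 → u * S.H 4 = 0 → c = 0) :
    coeff 6 (Ex (C 0 + TL S.pX)) = (81 / 5120 - 9 / 1024 * m + 9 / 8 * (m ^ 2 / 1152 + m / 2880) -
      m ^ 3 / 82944 - m ^ 2 / 69120 - m / 181440 : ℝ) • S.η ^ 6 := by
  have h' := h.toOK0
  have L := lei S _ _ h'
  have u : ∀ j, j = 1 ∨ j = 3 ∨ j = 5 → ∃ w, S.GX.Dg (j + 1) w ∧ S.T (S.es w) = 0 ∧
      S.pX (j + 1) = m • S.η ^ (j + 1) + w := fun j hj =>
    ⟨_, dg_sub (h.dX _) (Elr.dg_pow h.gx h.dη _) m, by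
      rw [map_sub, map_sub, t j hj, map_smul, map_smul, Tη h', sub_self], by ring⟩
  obtain ⟨w, dw, tw, p2⟩ := u 1 (by norm_num)
  obtain ⟨ξ, dξ, tξ, p4⟩ := u 3 (by norm_num)
  obtain ⟨ζ, dζ, tζ, p6⟩ := u 5 (by norm_num)
  have ml : ∀ a b, S.T (S.es a) = 0 → S.T (S.es b) = 0 → S.T (S.es (a * b)) = 0 := fun a b x y => by
    rw [map_mul, L.ker _ _ x, y, mul_zero]
  have dw2 := h.gx.dg_mul 2 2 _ _ dw dw
  have a1 := z6 h' dζ tζ
  have a2 := z4 h k dξ tξ
  have a3 := z4 h k dw2 (ml _ _ tw tw)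
  have a4 := z6 h' (h.gx.dg_mul 2 4 _ _ dw dw2) (ml _ _ tw (ml _ _ tw tw))
  have a5 := z6 h' (h.gx.dg_mul 2 4 _ _ dw dξ) (ml _ _ tw tξ)
  obtain ⟨c, hc⟩ := top1 (n := 4) h (h.gx.dg_mul 3 2 _ _ (Elr.dg_pow h.gx h.dη 3) dw)
  obtain ⟨b1, b2, b3⟩ := rel h' tw (i := 2) hc
  rw [c0 _ _ b1 b2 b3, zero_smul] at hc
  rw [Hr.coeff_td _ _ (by norm_num), Hr.tdx, h.c1, p2, p4, p6, a1]
  push_cast
  linear_combination (norm := algebra)
    ((-9 / 1024 + m / 512 - m ^ 2 / 27648 - m / 69120 : ℝ) • S.η) * hc +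
    ((1 / 1024 - m / 27648 : ℝ) • S.η) * a3 + ((1 / 2560 - m / 69120 : ℝ) • S.η) * a2 -
    (1 / 82944 : ℝ) • a4 - (1 / 69120 : ℝ) • a5

end T61

/-- the case of dimension six and fibres of dimension one does not occur -/
theorem t61 (h : S.OK 6 1) (x : S.Xt 6 1) (pl : S.Plane) (dq : S.DQ) : False := by
  have h' := h.toOK0
  have L := lei S _ _ h'
  obtain ⟨D, D0, hD⟩ := h.D
  rw [pow_one] at hD
  obtain ⟨x0, m, pl⟩ := pl
  have e0 : S.el S.hh = 0 := by
    rw [← one_mul S.hh, NS.hh, h.proj, lo h' Nat.one_pos h.gu.dg_one, zero_mul]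
  have eA : S.el S.aa = algebraMap ℝ A D := by
    rw [show S.aa = -S.τ + S.hh + S.hh by simp only [NS.aa, NS.hc]; ring, map_add, map_add, e0, hD]
    simp
  have inj : ∀ (a : ℝ) (z : ℤ), algebraMap ℝ A a = z → a = z := fun a z e => by
    have := congrArg (fun b => S.GX.int (b * S.η ^ 6)) e
    simp only [← Algebra.smul_def, ← zsmul_eq_mul, map_smul, map_zsmul, smul_eq_mul] at this
    exact mul_right_cancel₀ h.vol.ne' (this.trans (zsmul_eq_mul _ _))
  have eE : S.el (S.pE 1) = algebraMap ℝ A (x0 * D) := by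
    rw [pl, map_add, map_smul, map_smul, hD, e0, smul_zero, add_zero, map_mul, Algebra.smul_def]
  obtain ⟨d, hd⟩ := x.intF 1 0 rfl
  obtain ⟨γ, hγ⟩ := x.intF 0 1 rfl
  rw [pow_one, pow_zero, mul_one, ← neg_inj, ← map_neg, hD, ← Int.cast_neg] at hd
  rw [pow_one, pow_zero, one_mul, eE] at hγ
  have tq : S.T (S.Q 1) = 0 := h.inv 1
  have hm : m = 2 * x0 - 1 := by
    rw [Q1 h', pl, map_add, map_add, map_smul, map_smul, map_smul, map_neg, h.Tτ, NS.hh, h.Tη] at tq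
    have : (m - (2 * x0 - 1)) • (S.aa * S.H 5) = 0 := by
      linear_combination (norm := algebra) (S.aa * S.H 5) * tq
    have := congrArg (J S) this
    rw [map_smul, map_zero, smul_eq_mul] at this
    exact sub_eq_zero.1 ((mul_eq_zero.1 this).resolve_right (S41.pos h').ne')
  have hQ : S.Q 1 = (m / 2) • S.aa := by
    rw [Q1 h', pl, hm]; simp only [NS.aa, NS.hc]; algebra
  obtain ⟨x5, p5⟩ := top1 (n := 4) h (h.dX 5)
  have c := ch h'
  have q1 := c.q1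
  have q2 := c.q2
  have q3 := c.q3
  have q4 := c.q4
  have q5 := c.q5
  have q6 := c.q6
  have g6 := Hz h' (le_refl 6)
  simp only [p5, dg_hi h.gx (h.dX 7) (by norm_num), map_smul, Tη h', map_zero, Qk h' 2, Qk h' 3,
    Qk h' 4, Qk h' 5, Qk h' 6, hQ, Nat.cast_one, uu_eq] at q1 q3 q4 q5 q6
  obtain ⟨v, hv⟩ : ∃ v, v = S.GX.int (S.η ^ 6) := ⟨_, rfl⟩
  have v0 : 0 < v := hv ▸ h.vol
  have P0 := mul_pos D0 v0
  have jP : J S (S.aa * S.H 5) = D * v := by
    rw [← S41.ie h' L.aa, eA, ← Algebra.smul_def, map_smul, hv]; rfl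
  have jQ : J S (S.aa ^ 2 * S.H 4) = D * (D * v) := by
    rw [← S41.ie h' (by rw [sq, L.ker _ _ L.aa, L.aa, mul_zero]), dq, eA, ← map_pow, mul_assoc,
      ← pow_succ', ← Algebra.smul_def, map_smul, hv, smul_eq_mul]
    ring
  obtain ⟨R, hR⟩ : ∃ R, J S (S.ee ^ 3) = R * (D * v) := ⟨_, (div_mul_cancel₀ _ P0.ne').symm⟩
  have lin : ∀ a b c d : ℝ, J S (a • S.aa ^ 6 + b • (S.aa ^ 4 * S.ee) + c • (S.aa ^ 2 * S.ee ^ 2) +
      d • S.ee ^ 3) = (a * (9 * D + 5 * R - 13) + b * (3 * D + 2 * R - 5) + c * (D + R - 2) + d * R) *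
        (D * v) := fun a b c d => by
    have : a • S.aa ^ 6 + b • (S.aa ^ 4 * S.ee) + c • (S.aa ^ 2 * S.ee ^ 2) + d • S.ee ^ 3 =
        (9 * a + 3 * b + c) • (S.aa ^ 2 * S.H 4) - (13 * a + 5 * b + 2 * c) • (S.aa * S.H 5) +
          (5 * a + 2 * b + c + d) • S.ee ^ 3 + (5 * a + 2 * b + c) • S.H 6 := by
      simp only [NS.H, Hn]; algebra
    rw [this, g6, smul_zero, add_zero, map_add, map_sub, map_smul, map_smul, map_smul, jP, jQ, hR]
    simp only [smul_eq_mul]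
    ring
  have z : ∀ a b c d : ℝ, a • S.aa ^ 6 + b • (S.aa ^ 4 * S.ee) + c • (S.aa ^ 2 * S.ee ^ 2) +
      d • S.ee ^ 3 = 0 → a * (9 * D + 5 * R - 13) + b * (3 * D + 2 * R - 5) + c * (D + R - 2) +
        d * R = 0 := fun a b c d e =>
    (mul_eq_zero.1 ((lin a b c d).symm.trans (by rw [e, map_zero]))).resolve_right P0.ne'
  obtain ⟨y, hy⟩ : ∃ y, y = m ^ 2 := ⟨_, rfl⟩
  have G : (5 * y ^ 2 + 10 * y + 33 - 16 * x5) • S.aa ^ 4 + (48 * x5 - 40 * y - 264) •
      (S.aa ^ 2 * S.ee) + (528 - 16 * x5) • S.ee ^ 2 = 0 := by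
    simp only [NS.H, Hn, hy] at q4 ⊢
    linear_combination (norm := algebra) 80 * q4
  have E1 := z (7 * y ^ 3 + 35 * y ^ 2 + 21 * y + 129) (-140 * y ^ 2 - 168 * y - 1548)
    (336 * y + 6192) (-8256) (by
      rw [hy]; linear_combination (norm := algebra) 448 * q6)
  have E2 := z (5 * y ^ 2 + 10 * y + 33 - 16 * x5) (48 * x5 - 40 * y - 264) (528 - 16 * x5) 0
    (by linear_combination (norm := algebra) S.aa ^ 2 * G)
  have E3 := z 0 (5 * y ^ 2 + 10 * y + 33 - 16 * x5) (48 * x5 - 40 * y - 264) (528 - 16 * x5)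
    (by linear_combination (norm := algebra) S.ee * G)
  have k3 : J S (S.aa * S.ee * S.H 3) = (D - 1) * (D * v) := by
    rw [show S.aa * S.ee * S.H 3 = (0 : ℝ) • S.aa ^ 6 + (1 : ℝ) • (S.aa ^ 4 * S.ee) +
      (-2 : ℝ) • (S.aa ^ 2 * S.ee ^ 2) + (0 : ℝ) • S.ee ^ 3 by simp only [NS.H, Hn]; algebra, lin]
    ring
  have c0 : ∀ (u : B) (c : ℝ), u * S.H 2 = c • S.H 4 → u * S.H 3 = c • S.H 5 → u * S.H 4 = 0 →
      c * ((5 * y ^ 2 + 10 * y + 33) * (2 * D - 1) - (40 * y + 264) * (D - 1) + 528 * (D - 2)) = 0 :=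
    fun u c a2 a3 a4 => by
    have : (c * (2 * (5 * y ^ 2 + 10 * y + 33) - (40 * y + 264) + 528)) • (S.aa ^ 2 * S.H 4) -
        (c * ((5 * y ^ 2 + 10 * y + 33) - (40 * y + 264) + 1056)) • (S.aa * S.H 5) = 0 := by
      simp only [NS.H, Hn] at a2 a3 a4 ⊢
      linear_combination (norm := algebra) u * G + (16 * x5 - 528) • a4 -
        ((10 * y ^ 2 - 20 * y + 330) • S.aa ^ 2) * a2 + ((5 * y ^ 2 - 30 * y + 825) • S.aa) * a3
    have := congrArg (J S) this
    rw [map_sub, map_smul, map_smul, jP, jQ, map_zero, smul_eq_mul, smul_eq_mul] at this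
    exact mul_right_cancel₀ P0.ne' (by linear_combination this)
  have c1 : S.pX 1 = (3 : ℝ) • S.η := by rw [h.c1]; norm_num
  have one : 0 < γ → γ = 2 := fun k => by
    have k' : 0 < x0 * D := inj _ _ hγ ▸ Int.cast_pos.2 k
    have o := x.one _ _ (pos_of_mul_pos_left (mul_comm x0 D ▸ k') D0.le) pl
    rw [NS.χF, Hr.coeff_td _ _ (by norm_num), Hr.tdx] at o
    simp only [Int.cast_zero, zero_smul, add_zero, zero_add, map_smul, eE] at o
    have := inj (x0 * D) 2 (by linear_combination (norm := (push_cast; algebra)) 2 * o)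
    exact_mod_cast (inj _ _ hγ).symm.trans this
  have td := x.td
  obtain ⟨rfl, rfl, rfl⟩ | ⟨rfl, rfl, rfl⟩ | ⟨rfl, k⟩ := T61.cert (m := m) (R := R) (-d) γ (inj _ _ hd) D0
    (by rw [← inj _ _ hγ, hm]; ring) one hy (by linear_combination E1)
    (by linear_combination E2 - D * E3)
  · obtain rfl : x5 = 33 := by linarith
    have := (x.ex.hlK 2 2 rfl).1 _ L.ee (h.gu.dg_mul 1 1 _ _ (dh h') (dc h'))
      (by linear_combination (norm := algebra) (1 / 960 : ℝ) • G)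
    rw [this, zero_pow (by norm_num), map_zero] at hR
    linarith
  · obtain rfl : y = 0 := by rw [hy]; norm_num
    rw [T61.td h (by rw [k3]; positivity) (m := 0) (by
      rintro _ (rfl | rfl | rfl)
      · linear_combination (norm := algebra) -2 * q1
      · linear_combination (norm := algebra) -4 * q3
      · linear_combination (norm := algebra) -6 * q5)
      (fun u c a b e => by linarith [c0 u c a b e]), map_smul, ← hv, smul_eq_mul] at td
    obtain ⟨z, hz⟩ := x.intU 2 5 0 rfl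
    have e1 : S.es (S.pX 1) ^ 2 * S.τ ^ 5 * S.pE 1 ^ 0 = (9 : ℝ) • ((S.aa ^ 2 - 4 * S.ee) ^ 2 *
        (S.hh ^ (2 + 1) - S.ee * S.hh ^ (0 + 1))) := by
      rw [c1, map_smul]
      simp only [NS.aa, NS.ee, NS.hc, NS.hh]
      algebra
    have e2 : S.T (S.aa ^ 2 - 4 * S.ee) = 0 := by
      rw [map_sub, sq, L.ker _ _ L.aa, L.aa, mul_comm 4, L.ker _ _ L.ee, show (4 : B) = (4 : ℝ) • 1 by
        algebra, map_smul, L.one]
      simp
    rw [e1, L.int, map_smul, sq, mul_assoc, L.ker _ _ e2, L.ker _ _ e2, map_sub, L.ker _ _ L.ee,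
      L.pow, L.pow, show S.hh * (9 : ℝ) • ((S.aa ^ 2 - 4 * S.ee) * ((S.aa ^ 2 - 4 * S.ee) *
        (S.H 2 - S.ee * S.H 0))) = S.hh * ((9 : ℝ) • S.aa ^ 6 + (-90 : ℝ) • (S.aa ^ 4 * S.ee) +
          (288 : ℝ) • (S.aa ^ 2 * S.ee ^ 2) + (-288 : ℝ) • S.ee ^ 3) by
            simp only [NS.H, Hn]; algebra] at hz
    have := (lin 9 (-90) 288 (-288)).symm.trans hz
    have : 9 * z = 40960 := by exact_mod_cast (by linarith : (9 * z : ℝ) = 40960)
    omega
  · obtain rfl : y = 1 := by rw [hy]; norm_num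
    rw [T61.td h (by rw [k3]; rcases k with rfl | rfl <;> positivity) (m := -1) (by
      rintro _ (rfl | rfl | rfl) <;> simp only [NS.H, Hn]
      · linear_combination (norm := algebra) -2 * q1
      · linear_combination (norm := algebra) -4 * q3
      · linear_combination (norm := algebra) -6 * q5)
      (fun u c a b e => by rcases k with rfl | rfl <;> linarith [c0 u c a b e]), map_smul, ← hv,
      smul_eq_mul] at td
    obtain ⟨z, hz⟩ := x.intX
    rw [c1, smul_pow, map_smul, smul_eq_mul, ← hv] at hz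
    have : 127 * z = 3674160 := by exact_mod_cast (by linarith : (127 * z : ℝ) = 3674160)
    omega

end Vale.Agent.P280Z.Qs
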